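import Vale.Agent.P032.H642.Rh
import Vale.Agent.P032.S5.H450.Node

/-!
# P032: counts at good ends, five coloured points allowed

The counts of `H642/Rh.lean` with `N5 T` (at most five colours, and the points at distance one from a
five coloured point have at most three) in place of the bound four.
-/

open Set Filter Topology Metric

noncomputable section

namespace Vale.Agent.P032.H299

open Vale.Agent.P032.Six Vale.Agent.P032.S5.H767 Vale.Agent.P032.S5.H450 Vale.Agent.P032.H642

variable {U : Fin 6 → Set ℂ} {T : ℂ → Set (Fin 6)} {z v q : ℂ} {a b c d g p i j : Fin 6}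

/-- at most five colours, points at distance one from a five coloured point have at most three -/
structure N5 (T : ℂ → Set (Fin 6)) : Prop where
  le5 : ∀ x, (T x).ncard ≤ 5
  nb : ∀ x y, (T x).ncard = 5 → dist y x = 1 → (T y).ncard ≤ 3

theorem N5.le4 (N : N5 T) {x y : ℂ} (hd : dist y x = 1) (hx : 4 ≤ (T x).ncard) :
    (T y).ncard ≤ 4 := by
  have h5 := N.le5 y
  by_contra hcon
  have := N.nb y x (by omega) (by rw [dist_comm]; exact hd)
  omega

theorem N5.of_le (h4 : ∀ x, (T x).ncard ≤ 4) : N5 T :=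
  ⟨fun x => (h4 x).trans (by norm_num), fun x y h5 _ => by have := h4 x; omega⟩

theorem mem_ab (h : Irr U T) (G : GP T z v q a b c d g p) (hi : i = a ∨ i = b) : i ∈ T v := by
  have hsub := sub_of_closure h G.hv
  rcases hi with rfl | rfl
  · exact hsub (by simp)
  · exact hsub (by simp)

theorem ncard_abg (G : GP T z v q a b c d g p) : ({a, b, g} : Set (Fin 6)).ncard = 3 := by
  have hn := G.nd
  simp only [List.nodup_cons, List.mem_cons, List.not_mem_nil, or_false, not_or, List.nodup_nil,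
    and_true, not_false_eq_true] at hn
  obtain ⟨⟨ab, ac, ad, ag, ap⟩, ⟨bc, bd, bg, bp⟩, ⟨cd, cg, cp⟩, ⟨dg, dp⟩, gp⟩ := hn
  exact Set.ncard_eq_three.2 ⟨a, b, g, ab, ag, bg, rfl⟩

/-- a special end has four colours -/
theorem card_sp (h : Irr U T) (G : GP T z v q a b c d g p) (hpv : p ∈ T v) :
    4 ≤ (T v).ncard := by
  have h3 := ncard_abg G
  have hn := G.nd
  simp only [List.nodup_cons, List.mem_cons, List.not_mem_nil, or_false, not_or, List.nodup_nil,
    and_true, not_false_eq_true] at hn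
  obtain ⟨⟨ab, ac, ad, ag, ap⟩, ⟨bc, bd, bg, bp⟩, ⟨cd, cg, cp⟩, ⟨dg, dp⟩, gp⟩ := hn
  have h1 : insert p ({a, b, g} : Set (Fin 6)) ⊆ T v := by
    refine insert_subset hpv ?_
    rintro m (rfl | rfl | hm)
    · exact mem_ab h G (Or.inl rfl)
    · exact mem_ab h G (Or.inr rfl)
    · rw [mem_singleton_iff.1 hm]; exact G.gv
  have h2 := Set.ncard_le_ncard h1 (Set.toFinite _)
  rw [Set.ncard_insert_of_notMem (by
    simp only [mem_insert_iff, mem_singleton_iff, not_or]
    exact ⟨fun h => ap h.symm, fun h => bp h.symm, fun h => gp h.symm⟩) (Set.toFinite _), h3] at h2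
  exact h2

/-- a clean end -/
theorem pal_clean (h : Irr U T) (G : GP T z v q a b c d g p) (h3 : (T v).ncard ≤ 3) :
    T v = {a, b, g} := by
  symm
  refine Set.eq_of_subset_of_ncard_le ?_ (by rw [ncard_abg G]; exact h3) (Set.toFinite _)
  rintro m (rfl | rfl | hm)
  · exact mem_ab h G (Or.inl rfl)
  · exact mem_ab h G (Or.inr rfl)
  · rw [mem_singleton_iff.1 hm]; exact G.gv

/-- the node of a five coloured second centre -/
theorem nd_of_five (h : Irr U T) (hN : N5 T) (G : GP T z v q a b c d g p)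
    (h5 : (T (v + q - z)).ncard = 5) : Nd T {a, b, g} z v q := by
  have hv3 : (T v).ncard ≤ 3 := hN.nb _ _ h5 (by rw [dist_comm]; exact G.dwv)
  have hq3 : (T q).ncard ≤ 3 := hN.nb _ _ h5 (by rw [dist_comm]; exact G.dwq)
  refine ⟨ncard_abg G, by rw [dist_comm]; exact G.dv, by rw [dist_comm]; exact G.dq,
    pal_clean h G hv3, ?_, G.op h⟩
  rw [pal_clean h G.swap hq3]
  have hn := G.nd
  simp only [List.nodup_cons, List.mem_cons, List.not_mem_nil, or_false, not_or, List.nodup_nil,
    and_true, not_false_eq_true] at hn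
  obtain ⟨⟨ab, ac, ad, ag, ap⟩, ⟨bc, bd, bg, bp⟩, ⟨cd, cg, cp⟩, ⟨dg, dp⟩, gp⟩ := hn
  ext m
  simp only [mem_insert_iff, mem_singleton_iff, mem_compl_iff, not_or]
  constructor
  · rintro (rfl | rfl | rfl)
    · exact ⟨fun h => ac h.symm, fun h => bc h.symm, cg⟩
    · exact ⟨fun h => ad h.symm, fun h => bd h.symm, dg⟩
    · exact ⟨fun h => ap h.symm, fun h => bp h.symm, fun h => gp h.symm⟩
  · rintro ⟨h1, h2, h3⟩
    rcases all_of_nodup G.nd m with h4 | h4 | h4 | h4 | h4 | h4
    exacts [absurd h4 h1, absurd h4 h2, Or.inl h4, Or.inr (Or.inl h4), absurd h4 h3,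
      Or.inr (Or.inr h4)]

/-- the second centre is heavy or light at `v` -/
theorem heavy_or (h : Irr U T) (G : GP T z v q a b c d g p) :
    (a ∈ T (v + q - z) ∧ b ∈ T (v + q - z)) ∨ ∃ i, (i = a ∨ i = b) ∧ i ∈ T (v + q - z) ∧
      T (v + q - z) ⊆ {g, i} ∪ {c, d, p} := by
  obtain ⟨i, hi, hiw⟩ := G.i_mem h
  obtain ⟨i', hi', hii, hall⟩ := G.other hi
  by_cases h1 : i' ∈ T (v + q - z)
  · left
    rcases hi with rfl | rfl <;> rcases hi' with rfl | rfl
    · exact absurd rfl hii
    · exact ⟨hiw, h1⟩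
    · exact ⟨h1, hiw⟩
    · exact absurd rfl hii
  · right
    refine ⟨i, hi, hiw, fun m hm => ?_⟩
    have key : m = a ∨ m = b → m ∈ ({g, i} ∪ {c, d, p} : Set (Fin 6)) := by
      intro h2
      rcases hall m h2 with h3 | h3
      · rw [h3]; simp
      · rw [h3] at hm; exact absurd hm h1
    rcases all_of_nodup G.nd m with h4 | h4 | h4 | h4 | h4 | h4
    · exact key (Or.inl h4)
    · exact key (Or.inr h4)
    · rw [h4]; simp
    · rw [h4]; simp
    · rw [h4]; simp
    · rw [h4]; simp

/-- exact arcs accumulate at `v` on the circle of a light second centre -/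
theorem acc_light (h : Irr U T) (hmn : Mn4 U T) (hN : N5 T) (G : GP T z v q a b c d g p)
    (hi : i = a ∨ i = b) (hs : T (v + q - z) ⊆ {g, i} ∪ {c, d, p})
    (nv : p ∈ T v → ∀ y, dist y v = 1 → T y ≠ {g, p})
    (hend : p ∉ T v ∨ g ∉ T q ∨ St T z q {c, d} ∨ St T z v {a, b}) :
    Acc T (v + q - z) {g, i} v := by
  have hn := G.nd
  simp only [List.nodup_cons, List.mem_cons, List.not_mem_nil, or_false, not_or, List.nodup_nil,
    and_true, not_false_eq_true] at hn
  obtain ⟨⟨ab, ac, ad, ag, ap⟩, ⟨bc, bd, bg, bp⟩, ⟨cd, cg, cp⟩, ⟨dg, dp⟩, gp⟩ := hn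
  obtain ⟨i', hi', hii, hall⟩ := G.other hi
  have hi'w : i' ∉ T (v + q - z) := by
    intro h1
    have h2 := hs h1
    simp only [mem_union, mem_insert_iff, mem_singleton_iff] at h2
    rcases hi' with rfl | rfl
    · rcases h2 with (h2 | h2) | h2 | h2 | h2
      exacts [ag h2, hii h2, ac h2, ad h2, ap h2]
    · rcases h2 with (h2 | h2) | h2 | h2 | h2
      exacts [bg h2, hii h2, bc h2, bd h2, bp h2]
  by_cases h4 : (T (v + q - z)).ncard ≤ 4
  · obtain ⟨i2, j, hi2, hj, hT⟩ := G.four h h4
    have h5 : i2 = i := by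
      rcases hall i2 hi2 with h6 | h6
      · exact h6
      · exfalso
        apply hi'w
        rw [hT, ← h6]; simp
    subst h5
    exact G.rh_v h hmn hi hj hT nv hend
  · have h5 : (T (v + q - z)).ncard = 5 := by have := hN.le5 (v + q - z); omega
    have N := nd_of_five h hN G h5
    have hr : i' ∈ ({a, b, g} : Set (Fin 6)) := by
      rcases hi' with rfl | rfl <;> simp
    have hA := N.other.acc h hr hi'w
    have e : ({a, b, g} : Set (Fin 6)) \ {i'} = {g, i} := by
      ext m
      simp only [Set.mem_sdiff, mem_insert_iff, mem_singleton_iff]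
      constructor
      · rintro ⟨h6 | h6 | h6, h7⟩
        · rcases hall m (Or.inl h6) with h8 | h8
          · exact Or.inr h8
          · exact absurd h8 h7
        · rcases hall m (Or.inr h6) with h8 | h8
          · exact Or.inr h8
          · exact absurd h8 h7
        · exact Or.inl h6
      · rintro (h6 | h6)
        · refine ⟨Or.inr (Or.inr h6), fun h7 => ?_⟩
          rw [h6] at h7
          rcases hi' with h8 | h8
          · exact ag (h7.trans h8).symm
          · exact bg (h7.trans h8).symm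
        · refine ⟨?_, fun h7 => hii (by rw [← h7, h6])⟩
          rw [h6]
          rcases hi with h8 | h8
          · exact Or.inl h8
          · exact Or.inr (Or.inl h8)
    rw [e] at hA
    exact hA

/-- **One centre per pair at a vertex** -/
theorem one_centreN (h : Irr U T) {q' : ℂ} (G : GP T z v q a b c d g p)
    (G' : GP T z v q' a b c d g p) (hi : i = a ∨ i = b)
    (hs' : T (v + q' - z) ⊆ {g, i} ∪ {c, d, p}) (hA : Acc T (v + q - z) {g, i} v) : q = q' := by
  by_contra hne
  have hn := G.nd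
  simp only [List.nodup_cons, List.mem_cons, List.not_mem_nil, or_false, not_or, List.nodup_nil,
    and_true, not_false_eq_true] at hn
  obtain ⟨⟨ab, ac, ad, ag, ap⟩, ⟨bc, bd, bg, bp⟩, ⟨cd, cg, cp⟩, ⟨dg, dp⟩, gp⟩ := hn
  refine stripF h (u := v) (u' := q') (q := v + q' - z) (p := v + q - z) (P := {g, i})
    (s := {c, d, p}) G'.fq (G'.ne h) G'.dwv G'.dwq ?_ hs' ?_ ?_ hA
  · intro h1
    exact G'.op h (by linear_combination -h1)
  · intro h1
    obtain ⟨i', hi', hii, -⟩ := G.other hi
    have h2 : i' ∈ T v := mem_ab h G hi'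
    rw [h1] at h2
    rcases h2 with h2 | h2
    · rcases hi' with h3 | h3
      · exact ag (h3.symm.trans h2)
      · exact bg (h3.symm.trans h2)
    · exact hii h2
  · intro h1
    exact hne (by linear_combination h1)

/-- a heavy second centre -/
theorem heavy_eq (h : Irr U T) (hN : N5 T) {q' : ℂ} (G : GP T z v q a b c d g p)
    (G' : GP T z v q' a b c d g p) (ha : a ∈ T (v + q - z)) (hb : b ∈ T (v + q - z)) :
    q' = q ∨ q + q' = 2 * z := by
  have hn := G.nd
  simp only [List.nodup_cons, List.mem_cons, List.not_mem_nil, or_false, not_or, List.nodup_nil,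
    and_true, not_false_eq_true] at hn
  obtain ⟨⟨ab, ac, ad, ag, ap⟩, ⟨bc, bd, bg, bp⟩, ⟨cd, cg, cp⟩, ⟨dg, dp⟩, gp⟩ := hn
  have hX : ({a, b, g} : Set (Fin 6)) ⊆ T (v + q - z) := by
    rintro m (rfl | rfl | hm)
    · exact ha
    · exact hb
    · rw [mem_singleton_iff.1 hm]; exact G.g_mem h
  have h5 : (T (v + q - z)).ncard = 5 := by
    have h1 := hN.le5 (v + q - z)
    by_contra hcon
    obtain ⟨i, j, hi, hj, hT⟩ := G.four h (by omega)
    obtain ⟨i', hi', hii, -⟩ := G.other hi
    have h2 : i' ∈ T (v + q - z) := by rcases hi' with rfl | rfl <;> assumption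
    rw [hT] at h2
    simp only [mem_insert_iff, mem_singleton_iff] at h2
    rcases hi' with rfl | rfl
    · rcases h2 with h2 | h2 | h2 | h2
      · exact ag h2
      · exact hii h2
      · exact ap h2
      · rcases hj with rfl | rfl
        · exact ac h2
        · exact ad h2
    · rcases h2 with h2 | h2 | h2 | h2
      · exact bg h2
      · exact hii h2
      · exact bp h2
      · rcases hj with rfl | rfl
        · exact bc h2
        · exact bd h2
  have N := nd_of_five h hN G h5
  have hgz : g ∉ T z := by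
    rw [G.pal]
    simp only [mem_insert_iff, mem_singleton_iff, not_or]
    exact ⟨fun h => ag h.symm, fun h => bg h.symm, fun h => cg h.symm, fun h => dg h.symm⟩
  have hg : g ∈ ({a, b, g} : Set (Fin 6)) := by simp
  rcases N.heavy_line h hg hgz (p := v + q - z) G.dwv N.ne_other hX (p' := v + q' - z) G'.dwv
    (G'.g_mem h) with h1 | h1
  · left; linear_combination h1
  · right; linear_combination h1

/-- **A special end has at most one complementary end.** -/
theorem count_specialN (h : Irr U T) (hmn : Mn4 U T) (hN : N5 T) {q' : ℂ}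
    (G : GP T z v q a b c d g p) (G' : GP T z v q' a b c d g p) (hpv : p ∈ T v)
    (nv : ∀ y, dist y v = 1 → T y ≠ {g, p})
    (hend : g ∉ T q ∨ St T z q {c, d} ∨ St T z v {a, b}) : q = q' := by
  have h4 := card_sp h G hpv
  obtain ⟨i, j, hi, hj, hT⟩ := G.four h (hN.le4 G.dwv h4)
  obtain ⟨i', j', hi', hj', hT'⟩ := G'.four h (hN.le4 G'.dwv h4)
  have hii := G.spec_i h hmn G' hi hj hi' hj' hT hT' hpv nv
  subst hii
  exact G.one_centre h hmn G' hi hj hj' hT hT' (fun _ => nv) (Or.inr hend)

/-- **An end has at most two complementary ends.** -/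
theorem count_twoN (h : Irr U T) (hmn : Mn4 U T) (hN : N5 T) {q1 q2 q3 : ℂ}
    (G1 : GP T z v q1 a b c d g p) (G2 : GP T z v q2 a b c d g p)
    (G3 : GP T z v q3 a b c d g p) (nv : p ∈ T v → ∀ y, dist y v = 1 → T y ≠ {g, p})
    (hend1 : p ∉ T v ∨ g ∉ T q1 ∨ St T z q1 {c, d} ∨ St T z v {a, b})
    (hend2 : p ∉ T v ∨ g ∉ T q2 ∨ St T z q2 {c, d} ∨ St T z v {a, b}) :
    q1 = q2 ∨ q1 = q3 ∨ q2 = q3 := by
  -- heavy second centres
  have heavy : ∀ {x y w : ℂ}, GP T z v x a b c d g p → GP T z v y a b c d g p →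
      GP T z v w a b c d g p → a ∈ T (v + x - z) ∧ b ∈ T (v + x - z) →
      x = y ∨ x = w ∨ y = w := by
    intro x y w Gx Gy Gw hh
    rcases heavy_eq h hN Gx Gy hh.1 hh.2 with h1 | h1
    · exact Or.inl h1.symm
    · rcases heavy_eq h hN Gx Gw hh.1 hh.2 with h2 | h2
      · exact Or.inr (Or.inl h2.symm)
      · exact Or.inr (Or.inr (by linear_combination h1 - h2))
  rcases heavy_or h G1 with h1 | ⟨i1, hi1, -, hs1⟩
  · exact heavy G1 G2 G3 h1
  rcases heavy_or h G2 with h2 | ⟨i2, hi2, -, hs2⟩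
  · rcases heavy G2 G1 G3 h2 with h3 | h3 | h3
    exacts [Or.inl h3.symm, Or.inr (Or.inr h3), Or.inr (Or.inl h3)]
  rcases heavy_or h G3 with h3 | ⟨i3, hi3, -, hs3⟩
  · rcases heavy G3 G1 G2 h3 with h4 | h4 | h4
    exacts [Or.inr (Or.inl h4.symm), Or.inr (Or.inr h4.symm), Or.inl h4]
  by_cases h12 : i1 = i2
  · subst h12
    exact Or.inl (one_centreN h G1 G2 hi1 hs2 (acc_light h hmn hN G1 hi1 hs1 nv hend1))
  by_cases h13 : i1 = i3
  · subst h13
    exact Or.inr (Or.inl (one_centreN h G1 G3 hi1 hs3 (acc_light h hmn hN G1 hi1 hs1 nv hend1)))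
  have h23 : i2 = i3 := by
    rcases hi1 with rfl | rfl <;> rcases hi2 with rfl | rfl <;> rcases hi3 with rfl | rfl <;>
      first | rfl | exact absurd rfl h12 | exact absurd rfl h13
  subst h23
  exact Or.inr (Or.inr (one_centreN h G2 G3 hi2 hs3 (acc_light h hmn hN G2 hi2 hs2 nv hend2)))

end Vale.Agent.P032.H299
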