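import Vale.Agent.P032.H299.SymW
import Vale.Agent.P032.H299.GamW

/-!
# P032: the circle of a two-pair centre without special ends, words without `three`

The same as `S5/H358/Ok.lean` with `RawW` in place of `RawT`.
-/

open Set Filter Topology Metric

noncomputable section

namespace Vale.Agent.P032.H299

open Vale.Agent.P032.Six Vale.Agent.P032.Words Vale.Agent.P032.S5.H767 Vale.Agent.P032.S5.H349
open Vale.Agent.P032.Net.H672 Vale.Agent.P032.S5.H358 Vale.Agent.P032.H942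

variable {U : Fin 6 → Set ℂ} {T : ℂ → Set (Fin 6)} {X : Set (Fin 6)} {z v q q' m : ℂ}
  {a b c d e f : Fin 6}

/-- the circle of `z` is a tie word without special ends -/
structure OkW (U : Fin 6 → Set ℂ) (T : ℂ → Set (Fin 6)) (z : ℂ) : Prop where
  word : ∀ a b c d e f, Ctr U T z a b c d e f → RawW (Xs T z a b c d e f)
  ends : ∀ P : Set (Fin 6), P ⊆ T z → P.ncard = 2 → ∀ y, y ∈ closure (Ex T z P) →
    (T y).ncard ≤ 3

/-- the two exact palettes -/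
theorem ctr_endsW (C : Ctr U T z a b c d e f) (K : OkW U T z) {y : ℂ}
    (hy : y ∈ closure (Ex T z {a, b}) ∨ y ∈ closure (Ex T z {c, d})) : (T y).ncard ≤ 3 := by
  obtain ⟨⟨ab, ac, ad, ae, af⟩, ⟨bc, bd, be, bf⟩, ⟨cd, ce, cf⟩, ⟨de, df⟩, ef⟩ := nd_ne C.nd
  rcases hy with hy | hy
  · refine K.ends _ ?_ (Set.ncard_pair ab) y hy
    rw [C.pal]; rintro i (rfl | rfl) <;> simp
  · refine K.ends _ ?_ (Set.ncard_pair cd) y hy
    rw [C.pal]; rintro i (rfl | rfl) <;> simp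

/-- the common data -/
theorem marks_okW (C : Ctr U T z a b c d e f) (K : OkW U T z)
    (hX : X = {a, b, e}) (hcl : ∀ v, dist v z = 1 → T v = X → Cln T z v) {V : ℝ}
    (hv : En T X z (pt z V)) (hu : ∀ v', En T X z v' → v' = pt z V) (u : ℝ)
    (h0 : u ∈ Xs T z a b c d e f 0) (h2 : u ∈ Xs T z a b c d e f 2) : ∃ n : ℤ, u = V + 6 * n := by
  obtain ⟨⟨ab, ac, ad, ae, af⟩, ⟨bc, bd, be, bf⟩, ⟨cd, ce, cf⟩, ⟨de, df⟩, ef⟩ := nd_ne C.nd
  have k2 := sub_of_closure C.irr (P := {a, b}) h2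
  have hT : T (pt z u) = X := by
    symm
    refine Set.eq_of_subset_of_ncard_le ?_ ?_ (Set.toFinite _)
    · rw [hX]
      rintro i (rfl | rfl | rfl)
      · exact k2 (Or.inl rfl)
      · exact k2 (Or.inr rfl)
      · exact h0.2
    · have : X.ncard = 3 := by
        rw [hX]; exact Set.ncard_eq_three.2 ⟨a, b, e, ab, ae, be, rfl⟩
      rw [this]; exact ctr_endsW C K (Or.inl h2)
  exact pt_eq (hu _ (en_of_cln hv (dist_pt z u) hT (hcl _ (dist_pt z u) hT)))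

/-- the common data, second type -/
theorem marks_okW' (C : Ctr U T z a b c d e f) (K : OkW U T z)
    (hX : Xᶜ = {c, d, f}) (hcl : ∀ v, dist v z = 1 → T v = Xᶜ → Cln T z v)
    (hq : En T Xᶜ z q) (u : ℝ) (h1 : u ∈ Xs T z a b c d e f 1) (h2 : u ∈ Xs T z a b c d e f 3) :
    En T Xᶜ z (pt z u) := by
  obtain ⟨⟨ab, ac, ad, ae, af⟩, ⟨bc, bd, be, bf⟩, ⟨cd, ce, cf⟩, ⟨de, df⟩, ef⟩ := nd_ne C.nd
  have k2 := sub_of_closure C.irr (P := {c, d}) h2
  have hT : T (pt z u) = Xᶜ := by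
    symm
    refine Set.eq_of_subset_of_ncard_le ?_ ?_ (Set.toFinite _)
    · rw [hX]
      rintro i (rfl | rfl | rfl)
      · exact k2 (Or.inl rfl)
      · exact k2 (Or.inr rfl)
      · exact h1.2
    · have : Xᶜ.ncard = 3 := by
        rw [hX]; exact Set.ncard_eq_three.2 ⟨c, d, f, cd, cf, df, rfl⟩
      rw [this]; exact ctr_endsW C K (Or.inr h2)
  exact en_of_cln hq (dist_pt z u) hT (hcl _ (dist_pt z u) hT)

/-- **L2** for ends: not exactly one end of each of two complementary types. -/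
theorem L2_okW (h : Irr U T) (hX : X.ncard = 3) (K : OkW U T z)
    (hpairs : ∀ y, dist y z = 1 → (∀ᶠ q in 𝓝[sphere z 1] y, T q = T y) → T y ⊆ T z →
      T y = T z ∩ X ∨ T y = T z ∩ Xᶜ)
    (hcl : ∀ v, dist v z = 1 → T v = X ∨ T v = Xᶜ → Cln T z v)
    (hv : En T X z v) (hq : En T Xᶜ z q) :
    (∃ v', v' ≠ v ∧ En T X z v') ∨ ∃ q', q' ≠ q ∧ En T Xᶜ z q' := by
  by_contra hcon
  push Not at hcon
  obtain ⟨hu, hu'⟩ := hcon
  obtain ⟨a, b, c, d, e, f, C, hXabe, hXcdf⟩ := exists_ctr h hX hpairs hv hq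
  obtain ⟨V, rfl⟩ := exists_pt hv.2.2.2.1
  obtain ⟨Q, rfl⟩ := exists_pt hq.2.2.2.1
  refine (K.word _ _ _ _ _ _ C).L2 (V := V) (Q := Q)
    (end02 C (by rw [hv.1, hXabe]) (hcl _ hv.2.2.2.1 (Or.inl hv.1)))
    (end13 C (by rw [hq.1, hXcdf]) (hcl _ hq.2.2.2.1 (Or.inr hq.1))) ?_ ?_
  · intro u h0 h2
    exact marks_okW C K hXabe (fun v h4 h5 => hcl v h4 (Or.inl h5)) hv
      (fun v' hv' => by by_contra hne; exact hu v' hne hv') u h0 h2
  · intro u h1 h4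
    have := marks_okW' C K hXcdf (fun v h4 h5 => hcl v h4 (Or.inr h5)) hq u h1 h4
    refine pt_eq (z := z) ?_
    by_contra hne
    exact hu' _ hne this

/-- **L3** for ends: the centre is in the open triangle of the three ends. -/
theorem L3_okW (h : Irr U T) (hX : X.ncard = 3) (K : OkW U T z)
    (hpairs : ∀ y, dist y z = 1 → (∀ᶠ q in 𝓝[sphere z 1] y, T q = T y) → T y ⊆ T z →
      T y = T z ∩ X ∨ T y = T z ∩ Xᶜ)
    (hcl : ∀ v, dist v z = 1 → T v = X ∨ T v = Xᶜ → Cln T z v)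
    (hv : En T X z v) (hq : En T Xᶜ z q) (hq' : En T Xᶜ z q') (hne : q ≠ q')
    (hu : ∀ v', En T X z v' → v' = v) (hu' : ∀ p, En T Xᶜ z p → p = q ∨ p = q') :
    ∃ α β γ : ℝ, 0 < α ∧ 0 < β ∧ 0 < γ ∧
      (α : ℂ) * (v - z) + (β : ℂ) * (q - z) + (γ : ℂ) * (q' - z) = 0 := by
  obtain ⟨a, b, c, d, e, f, C, hXabe, hXcdf⟩ := exists_ctr h hX hpairs hv hq
  have hvq : v ≠ q := hv.ne hX hq
  have hvq' : v ≠ q' := hv.ne hX hq'
  obtain ⟨V, rfl⟩ := exists_pt hv.2.2.2.1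
  -- representatives
  have rep : ∀ {p : ℂ}, dist p z = 1 → pt z V ≠ p → ∃ Q, p = pt z Q ∧ V < Q ∧ Q < V + 6 := by
    intro p hp hVp
    obtain ⟨Q, hQ⟩ := exists_pt hp
    have hper : ∀ n : ℤ, ∀ u, pt z (u + 6 * n) = pt z u := by
      intro n
      induction n with
      | zero => intro u; simp
      | succ i ih =>
        intro u
        have e1 : u + 6 * (((i : ℤ) + 1 : ℤ) : ℝ) = (u + 6 * ((i : ℤ) : ℝ)) + 6 := by
          push_cast; ring
        rw [e1, pt_six, ih]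
      | pred i ih =>
        intro u
        have e1 : u + 6 * ((-(i : ℤ) - 1 : ℤ) : ℝ) + 6 = u + 6 * ((-(i : ℤ) : ℤ) : ℝ) := by
          push_cast; ring
        rw [← pt_six, e1, ih]
    have h1 := Int.floor_le ((Q - V) / 6)
    have h2 := Int.lt_floor_add_one ((Q - V) / 6)
    have h4 : p = pt z (Q + 6 * ((-⌊(Q - V) / 6⌋ : ℤ) : ℝ)) := by rw [hper, hQ]
    refine ⟨Q + 6 * ((-⌊(Q - V) / 6⌋ : ℤ) : ℝ), h4, ?_, ?_⟩
    · refine lt_of_le_of_ne ?_ ?_
      · push_cast; linarith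
      · intro h5
        exact hVp (by rw [h4, ← h5])
    · push_cast; linarith
  have main : ∀ {Q Q' : ℝ}, V < Q → Q < Q' → Q' < V + 6 → En T Xᶜ z (pt z Q) →
      En T Xᶜ z (pt z Q') → (∀ p, En T Xᶜ z p → p = pt z Q ∨ p = pt z Q') →
      ∃ α β γ : ℝ, 0 < α ∧ 0 < β ∧ 0 < γ ∧ (α : ℂ) * (pt z V - z) + (β : ℂ) * (pt z Q - z) +
        (γ : ℂ) * (pt z Q' - z) = 0 := by
    intro Q Q' hVQ hQQ' hQ6 hEQ hEQ' hun
    obtain ⟨k1, k2, k4⟩ := (K.word _ _ _ _ _ _ C).L3 (V := V) (Q := Q) (Q' := Q')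
      (end02 C (by rw [hv.1, hXabe]) (hcl _ hv.2.2.2.1 (Or.inl hv.1)))
      (fun u h0 h2 => marks_okW C K hXabe (fun v h4 h5 => hcl v h4 (Or.inl h5)) hv hu u h0 h2)
      (end13 C (by rw [hEQ.1, hXcdf]) (hcl _ hEQ.2.2.2.1 (Or.inr hEQ.1)))
      (end13 C (by rw [hEQ'.1, hXcdf]) (hcl _ hEQ'.2.2.2.1 (Or.inr hEQ'.1))) hVQ hQQ' hQ6
      (fun u h1 h4 => by
        have := marks_okW' C K hXcdf (fun v h4 h5 => hcl v h4 (Or.inr h5)) hEQ u h1 h4
        rcases hun _ this with h5 | h5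
        · obtain ⟨n, hn⟩ := pt_eq h5
          exact ⟨n, Or.inl hn⟩
        · obtain ⟨n, hn⟩ := pt_eq h5
          exact ⟨n, Or.inr hn⟩)
    have hpi := Real.pi_pos
    refine ⟨Real.sin (Q' * (Real.pi / 3) - Q * (Real.pi / 3)),
      Real.sin (V * (Real.pi / 3) - Q' * (Real.pi / 3)),
      Real.sin (Q * (Real.pi / 3) - V * (Real.pi / 3)), ?_, ?_, ?_, ?_⟩
    · apply Real.sin_pos_of_pos_of_lt_pi
      · nlinarith
      · nlinarith
    · have e1 : V * (Real.pi / 3) - Q' * (Real.pi / 3) =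
          (V + 6 - Q') * (Real.pi / 3) - 2 * Real.pi := by ring
      rw [e1, Real.sin_sub_two_pi]
      apply Real.sin_pos_of_pos_of_lt_pi
      · nlinarith
      · nlinarith
    · apply Real.sin_pos_of_pos_of_lt_pi
      · nlinarith
      · nlinarith
    · have := tri_id (V * (Real.pi / 3)) (Q * (Real.pi / 3)) (Q' * (Real.pi / 3))
      unfold pt
      rw [add_sub_cancel_left, add_sub_cancel_left, add_sub_cancel_left]
      exact this
  obtain ⟨Q, hQ, hQ1, hQ2⟩ := rep hq.2.2.2.1 hvq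
  obtain ⟨Q', hQ', hQ1', hQ2'⟩ := rep hq'.2.2.2.1 hvq'
  subst hQ
  subst hQ'
  rcases lt_trichotomy Q Q' with hlt | heq | hlt
  · exact main hQ1 hlt hQ2' hq hq' hu'
  · exact absurd (by rw [heq]) hne
  · obtain ⟨α, β, γ, h1, h2, h4, h5⟩ := main hQ1' hlt hQ2 hq' hq (fun p hp => (hu' p hp).symm)
    exact ⟨α, γ, β, h1, h4, h2, by linear_combination h5⟩

/-- **L1** for the colours: `e` meets one of the two pairs. -/
theorem L1e_okW (C : Ctr U T z a b c d e f) (K : OkW U T z) :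
    ∃ y, dist y z = 1 ∧ (T y = {a, b, e} ∨ T y = {c, d, e}) := by
  obtain ⟨⟨ab, ac, ad, ae, af⟩, ⟨bc, bd, be, bf⟩, ⟨cd, ce, cf⟩, ⟨de, df⟩, ef⟩ := nd_ne C.nd
  obtain ⟨u, h0, h2 | h2⟩ := (K.word _ _ _ _ _ _ C).L1e
  · have k2 := sub_of_closure C.irr (P := {a, b}) h2
    refine ⟨pt z u, dist_pt z u, Or.inl (Eq.symm (Set.eq_of_subset_of_ncard_le ?_ ?_
      (Set.toFinite _)))⟩
    · rintro i (rfl | rfl | rfl)
      · exact k2 (Or.inl rfl)
      · exact k2 (Or.inr rfl)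
      · exact h0.2
    · rw [Set.ncard_eq_three.2 ⟨a, b, e, ab, ae, be, rfl⟩]; exact ctr_endsW C K (Or.inl h2)
  · have k2 := sub_of_closure C.irr (P := {c, d}) h2
    refine ⟨pt z u, dist_pt z u, Or.inr (Eq.symm (Set.eq_of_subset_of_ncard_le ?_ ?_
      (Set.toFinite _)))⟩
    · rintro i (rfl | rfl | rfl)
      · exact k2 (Or.inl rfl)
      · exact k2 (Or.inr rfl)
      · exact h0.2
    · rw [Set.ncard_eq_three.2 ⟨c, d, e, cd, ce, de, rfl⟩]; exact ctr_endsW C K (Or.inr h2)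

/-- the other end of an arc -/
theorem arc_ex_okW (h : Irr U T) (K : OkW U T z) (hv : EE T z v)
    (hq : EE T z q) (hc : T q = (T v)ᶜ) : ∃ v', AA T z v v' := by
  obtain ⟨l, hl0, hl, hE, hp, harc⟩ := far' h (K.ends _ inter_subset_left hv.card_i) hv.ore813
    hq.ore813 (by
      rw [hc, Set.disjoint_left]
      rintro i ⟨-, h1⟩ h2
      exact h2 h1)
  exact ⟨_, _, l, hl0, hl, hv.ore813, hE, rfl, harc⟩

/-- **Start of the network argument** -/
theorem start_okW (h : Irr U T) (h4 : ∀ z, (T z).ncard ≤ 4) (hz : DPt T z a b c d)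
    (K : OkW U T z) : ∃ v q, EE T z v ∧ EE T z q ∧ T q = (T v)ᶜ := by
  obtain ⟨e, f, nd⟩ := hz.exists_nodup
  have C := ctr_of_dpt h hz nd
  have nd' : [a, b, c, d, f, e].Nodup := by
    have : [a, b, c, d, f, e].Perm [a, b, c, d, e, f] := by
      refine List.Perm.cons _ (List.Perm.cons _ (List.Perm.cons _ (List.Perm.cons _ ?_)))
      exact List.Perm.swap _ _ _
    exact this.nodup_iff.2 nd
  have C' := ctr_of_dpt h hz nd'
  obtain ⟨⟨ab, ac, ad, ae, af⟩, ⟨bc, bd, be, bf⟩, ⟨cd, ce, cf⟩, ⟨de, df⟩, ef⟩ := nd_ne nd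
  have he : e ∉ T z := by
    rw [hz.pal]
    simp only [mem_insert_iff, mem_singleton_iff, not_or]
    exact ⟨ae.symm, be.symm, ce.symm, de.symm⟩
  have hf : f ∉ T z := by
    rw [hz.pal]
    simp only [mem_insert_iff, mem_singleton_iff, not_or]
    exact ⟨af.symm, bf.symm, cf.symm, df.symm⟩
  -- the two kinds of complementary pairs
  have fin1 : ∀ {V Q : ℂ}, dist V z = 1 → dist Q z = 1 → T V = {a, b, e} → T Q = {c, d, f} →
      ∃ v q, EE T z v ∧ EE T z q ∧ T q = (T v)ᶜ := by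
    intro V Q hV hQ h1 h2
    exact ⟨V, Q, Cfg.ends h ⟨hz, hV, hQ, h1, h2, he, hf, ef⟩ (h4 _)⟩
  have fin2 : ∀ {V Q : ℂ}, dist V z = 1 → dist Q z = 1 → T V = {a, b, f} → T Q = {c, d, e} →
      ∃ v q, EE T z v ∧ EE T z q ∧ T q = (T v)ᶜ := by
    intro V Q hV hQ h1 h2
    exact ⟨V, Q, Cfg.ends h ⟨hz, hV, hQ, h1, h2, hf, he, ef.symm⟩ (h4 _)⟩
  obtain ⟨y1, d1, k1⟩ := L1e_okW C K
  obtain ⟨y2, d2, k2⟩ := L1e_okW C' K
  obtain ⟨y3, g3, d3, hg3, k3⟩ := arc_end_ok h hz fun y hy => ctr_endsW C K (Or.inl hy)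
  obtain ⟨y4, g4, d4, hg4, k4⟩ := arc_end_ok h hz.swap fun y hy => ctr_endsW C K (Or.inr hy)
  rcases C.miss hg3 with rfl | rfl
  · -- `y3 = abe`
    rcases C.miss hg4 with rfl | rfl
    · -- `y4 = cde`
      rcases k2 with k2 | k2
      · exact fin2 d2 d4 k2 k4
      · exact fin1 d3 d2 k3 k2
    · exact fin1 d3 d4 k3 k4
  · -- `y3 = abf`
    rcases C.miss hg4 with rfl | rfl
    · exact fin2 d3 d4 k3 k4
    · rcases k1 with k1 | k1
      · exact fin1 d1 d4 k1 k4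
      · exact fin2 d3 d1 k3 k1


end Vale.Agent.P032.H299
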