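import Vale.Agent.P032.H299.RawL

/-!
# Words on a circle: shifting one mark

The single end `e|A` at `V` of a word is moved by `δ` into the side of the letter `e`.  The new word
has no end `e|A`, contact `e|f` and end `f|C` in a row.  So the facts L2 and L3 hold for `RawW`.
-/

namespace Vale.Agent.P032.Words

open Set Filter Topology

/-- closed neighbourhood of `V` modulo `6` -/
def Jc (V δ : ℝ) : Set ℝ := {u | Real.cos (Real.pi / 3 * δ) ≤ Real.cos (Real.pi / 3 * (u - V))}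

/-- open neighbourhood of `V` modulo `6` -/
def Jo (V δ : ℝ) : Set ℝ := {u | Real.cos (Real.pi / 3 * δ) < Real.cos (Real.pi / 3 * (u - V))}

theorem isClosed_Jc (V δ : ℝ) : IsClosed (Jc V δ) := by
  unfold Jc
  exact isClosed_le continuous_const (Real.continuous_cos.comp (by fun_prop))

theorem isOpen_Jo (V δ : ℝ) : IsOpen (Jo V δ) := by
  unfold Jo
  exact isOpen_lt continuous_const (Real.continuous_cos.comp (by fun_prop))

theorem cos_shift (V u : ℝ) (n : ℤ) :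
    Real.cos (Real.pi / 3 * (u - V)) = Real.cos (Real.pi / 3 * |u - V - 6 * n|) := by
  have h1 : Real.cos (Real.pi / 3 * |u - V - 6 * n|) = Real.cos (Real.pi / 3 * (u - V - 6 * n)) := by
    have hp : 0 < Real.pi / 3 := by positivity
    rw [← Real.cos_abs (Real.pi / 3 * (u - V - 6 * n)), abs_mul, abs_of_pos hp]
  rw [h1]
  have h2 : Real.pi / 3 * (u - V - 6 * n) = Real.pi / 3 * (u - V) - n * (2 * Real.pi) := by ring
  rw [h2, Real.cos_sub_int_mul_two_pi]

theorem Jc_iff {V δ u : ℝ} (h0 : 0 ≤ δ) (h1 : δ ≤ 3) :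
    u ∈ Jc V δ ↔ ∃ n : ℤ, |u - V - 6 * n| ≤ δ := by
  have hpi := Real.pi_pos
  have key : ∀ n : ℤ, |u - V - 6 * n| ≤ 3 → (u ∈ Jc V δ ↔ |u - V - 6 * n| ≤ δ) := by
    intro n hn
    unfold Jc
    rw [mem_ofPred_eq, cos_shift V u n]
    rw [Real.strictAntiOn_cos.le_iff_ge (a := Real.pi / 3 * δ)
      (b := Real.pi / 3 * |u - V - 6 * n|)]
    · constructor
      · intro h; exact le_of_mul_le_mul_left h (by positivity)
      · intro h; exact mul_le_mul_of_nonneg_left h (by positivity)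
    · exact ⟨by positivity, by nlinarith⟩
    · exact ⟨by positivity, by nlinarith⟩
  constructor
  · intro h
    refine ⟨round ((u - V) / 6), ?_⟩
    have h3 : |u - V - 6 * (round ((u - V) / 6) : ℝ)| ≤ 3 := by
      have h4 := abs_sub_round ((u - V) / 6)
      rw [abs_le] at h4 ⊢
      constructor <;> linarith [h4.1, h4.2]
    exact (key _ h3).1 h
  · rintro ⟨n, hn⟩
    exact (key n (hn.trans h1)).2 hn

theorem Jo_iff {V δ u : ℝ} (h0 : 0 ≤ δ) (h1 : δ ≤ 3) :
    u ∈ Jo V δ ↔ ∃ n : ℤ, |u - V - 6 * n| < δ := by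
  have hpi := Real.pi_pos
  have key : ∀ n : ℤ, |u - V - 6 * n| ≤ 3 → (u ∈ Jo V δ ↔ |u - V - 6 * n| < δ) := by
    intro n hn
    unfold Jo
    rw [mem_ofPred_eq, cos_shift V u n]
    rw [Real.strictAntiOn_cos.lt_iff_gt (a := Real.pi / 3 * δ)
      (b := Real.pi / 3 * |u - V - 6 * n|)]
    · constructor
      · intro h; exact lt_of_mul_lt_mul_left h (by positivity)
      · intro h; exact mul_lt_mul_of_pos_left h (by positivity)
    · exact ⟨by positivity, by nlinarith⟩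
    · exact ⟨by positivity, by nlinarith⟩
  constructor
  · intro h
    refine ⟨round ((u - V) / 6), ?_⟩
    have h3 : |u - V - 6 * (round ((u - V) / 6) : ℝ)| ≤ 3 := by
      have h4 := abs_sub_round ((u - V) / 6)
      rw [abs_le] at h4 ⊢
      constructor <;> linarith [h4.1, h4.2]
    exact (key _ h3).1 h
  · rintro ⟨n, hn⟩
    exact (key n (hn.le.trans h1)).2 hn

/-- the word with the end `e|A` at `V` moved by `δ` -/
def Xp (X : Fin 4 → Set ℝ) (V δ : ℝ) : Fin 4 → Set ℝ := ![X 0 \ Jo V δ, X 1, X 2 ∪ Jc V δ, X 3]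

variable {X : Fin 4 → Set ℝ} {V δ δ' σ : ℝ}

theorem RawW.perZ (w : RawW X) (n : ℤ) (l : Fin 4) (u : ℝ) : u + 6 * (n : ℝ) ∈ X l ↔ u ∈ X l := by
  induction n generalizing u with
  | zero => simp
  | succ i ih =>
    have : u + 6 * (((i : ℤ) + 1 : ℤ) : ℝ) = (u + 6 * ((i : ℤ) : ℝ)) + 6 := by push_cast; ring
    rw [this, w.per, ih]
  | pred i ih =>
    have : u + 6 * ((-(i : ℤ) - 1 : ℤ) : ℝ) + 6 = u + 6 * ((-(i : ℤ) : ℤ) : ℝ) := by
      push_cast; ring
    rw [← w.per, this, ih]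

/-- the local picture at `V` -/
structure Loc (X : Fin 4 → Set ℝ) (V δ' σ : ℝ) : Prop where
  sg : σ = 1 ∨ σ = -1
  pos : 0 < δ'
  le : δ' ≤ 1 / 4
  n1 : ∀ t, |t| < δ' → V + t ∉ X 1
  n3 : ∀ t, |t| < δ' → V + t ∉ X 3
  nr : ∀ t, |t| < δ' → V + t + 1 ∉ X 2
  nl : ∀ t, |t| < δ' → V + t - 1 ∉ X 2
  na : ∀ t, |t| < δ' → V + t + 3 ∉ X 3
  s2 : ∀ t, 0 < t → t < δ' → V + σ * t ∉ X 2
  s0 : ∀ t, 0 < t → t < δ' → V - σ * t ∉ X 0

theorem RawW.exists_loc (w : RawW X) (hV : VMark X V) (h1 : V + 1 ∉ X 2) (h2 : V - 1 ∉ X 2) :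
    ∃ δ' σ, Loc X V δ' σ ∧ (σ = -1 → Mark X 0 2 V) ∧ (σ = 1 → Mark X 2 0 V) := by
  have hop : ∀ (l : Fin 4) (c : ℝ), V + c ∉ X l → ∀ᶠ u in 𝓝 V, u + c ∉ X l := by
    intro l c hc
    have hcont : Continuous fun v : ℝ => v + c := by fun_prop
    exact (hcont.tendsto V).eventually ((w.closed l).isOpen_compl.mem_nhds hc)
  have hV0 : V ∈ X 0 := by rcases hV with h | h; exacts [h.mem_a, h.mem_b]
  have hV2 : V ∈ X 2 := by rcases hV with h | h; exacts [h.mem_b, h.mem_a]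
  have hn1 : V ∉ X 1 := by
    intro h
    rcases hV with hm | hm <;> rcases hm.only _ h with h' | h' <;> exact absurd h' (by decide)
  have hn3 : V ∉ X 3 := by
    intro h
    rcases hV with hm | hm <;> rcases hm.only _ h with h' | h' <;> exact absurd h' (by decide)
  have e1 := hop 1 0 (by simpa using hn1)
  have e3 := hop 3 0 (by simpa using hn3)
  have er := hop 2 1 h1
  have el := hop 2 (-1) (by simpa [sub_eq_add_neg] using h2)
  have ea := hop 3 3 (w.anti V hV2)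
  have main : ∀ {σ : ℝ}, (σ = 1 ∨ σ = -1) →
      (∀ᶠ u in 𝓝 V, (0 < σ * (u - V) → u ∉ X 2) ∧ (σ * (u - V) < 0 → u ∉ X 0)) →
      ∃ δ', Loc X V δ' σ := by
    intro σ hσ hs
    obtain ⟨ε, hε, H⟩ := Metric.eventually_nhds_iff.1
      (e1.and (e3.and (er.and (el.and (ea.and hs)))))
    have hd : ∀ t : ℝ, |t| < ε → dist (V + t) V < ε := by
      intro t ht; rw [Real.dist_eq]; simpa using ht
    refine ⟨min ε (1 / 4), hσ, by positivity, min_le_right _ _, ?_, ?_, ?_, ?_, ?_, ?_, ?_⟩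
    · intro t ht
      have := (H (hd t (lt_of_lt_of_le ht (min_le_left _ _)))).1
      simpa using this
    · intro t ht
      have := (H (hd t (lt_of_lt_of_le ht (min_le_left _ _)))).2.1
      simpa using this
    · intro t ht
      exact (H (hd t (lt_of_lt_of_le ht (min_le_left _ _)))).2.2.1
    · intro t ht
      exact (H (hd t (lt_of_lt_of_le ht (min_le_left _ _)))).2.2.2.1
    · intro t ht
      exact (H (hd t (lt_of_lt_of_le ht (min_le_left _ _)))).2.2.2.2.1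
    · intro t h0 ht
      have h5 : |σ * t| < ε := by
        rcases hσ with rfl | rfl
        · rw [one_mul, abs_of_pos h0]; exact lt_of_lt_of_le ht (min_le_left _ _)
        · rw [neg_one_mul, abs_neg, abs_of_pos h0]; exact lt_of_lt_of_le ht (min_le_left _ _)
      refine (H (hd _ h5)).2.2.2.2.2.1 ?_
      rcases hσ with rfl | rfl <;> linarith
    · intro t h0 ht
      have h5 : |-(σ * t)| < ε := by
        rcases hσ with rfl | rfl
        · rw [one_mul, abs_neg, abs_of_pos h0]; exact lt_of_lt_of_le ht (min_le_left _ _)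
        · rw [neg_one_mul, neg_neg, abs_of_pos h0]; exact lt_of_lt_of_le ht (min_le_left _ _)
      have := (H (hd _ h5)).2.2.2.2.2.2
      rw [← sub_eq_add_neg] at this
      refine this ?_
      rcases hσ with rfl | rfl <;> linarith
  rcases hV with hm | hm
  · have hl := eventually_nhdsWithin_iff.1 hm.left
    have hr := eventually_nhdsWithin_iff.1 hm.right
    obtain ⟨δ', h⟩ := main (σ := -1) (Or.inr rfl) (by
      filter_upwards [hl, hr] with u h3 h4
      exact ⟨fun h5 => h3 (by rw [mem_Iio]; linarith), fun h5 => h4 (by rw [mem_Ioi]; linarith)⟩)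
    exact ⟨δ', -1, h, fun _ => hm, fun h => by norm_num at h⟩
  · have hl := eventually_nhdsWithin_iff.1 hm.left
    have hr := eventually_nhdsWithin_iff.1 hm.right
    obtain ⟨δ', h⟩ := main (σ := 1) (Or.inl rfl) (by
      filter_upwards [hl, hr] with u h3 h4
      exact ⟨fun h5 => h4 (by rw [mem_Ioi]; linarith), fun h5 => h3 (by rw [mem_Iio]; linarith)⟩)
    exact ⟨δ', 1, h, fun h => by norm_num at h, fun _ => hm⟩

section pert
variable (w : RawW X) (L : Loc X V δ' σ) (h0 : 0 < δ) (h1 : δ < δ')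
include w L h0 h1

theorem Jc_rep {u : ℝ} (hu : u ∈ Jc V δ) : ∃ (n : ℤ) (t : ℝ), |t| ≤ δ ∧ u = V + t + 6 * n := by
  have := L.le
  obtain ⟨n, hn⟩ := (Jc_iff h0.le (by linarith)).1 hu
  exact ⟨n, u - V - 6 * n, hn, by ring⟩

theorem Jo_sub {u : ℝ} (hu : u ∈ Jo V δ) : u ∈ Jc V δ := by
  have h := hu
  unfold Jo at h
  unfold Jc
  rw [mem_ofPred_eq] at h ⊢
  exact h.le

theorem Jc_n1 {u : ℝ} (hu : u ∈ Jc V δ) : u ∉ X 1 := by
  obtain ⟨n, t, ht, rfl⟩ := Jc_rep w L h0 h1 hu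
  rw [w.perZ]; exact L.n1 t (lt_of_le_of_lt ht h1)

theorem Jc_n3 {u : ℝ} (hu : u ∈ Jc V δ) : u ∉ X 3 := by
  obtain ⟨n, t, ht, rfl⟩ := Jc_rep w L h0 h1 hu
  rw [w.perZ]; exact L.n3 t (lt_of_le_of_lt ht h1)

theorem Jc_na {u : ℝ} (hu : u ∈ Jc V δ) : u + 3 ∉ X 3 := by
  obtain ⟨n, t, ht, rfl⟩ := Jc_rep w L h0 h1 hu
  have e : V + t + 6 * (n : ℝ) + 3 = V + t + 3 + 6 * (n : ℝ) := by ring
  rw [e, w.perZ]; exact L.na t (lt_of_le_of_lt ht h1)

theorem Jc_nr {u : ℝ} (hu : u ∈ Jc V δ) : u + 1 ∉ X 2 := by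
  obtain ⟨n, t, ht, rfl⟩ := Jc_rep w L h0 h1 hu
  have e : V + t + 6 * (n : ℝ) + 1 = V + t + 1 + 6 * (n : ℝ) := by ring
  rw [e, w.perZ]; exact L.nr t (lt_of_le_of_lt ht h1)

theorem Jc_nl {u : ℝ} (hu : u + 1 ∈ Jc V δ) : u ∉ X 2 := by
  obtain ⟨n, t, ht, hu'⟩ := Jc_rep w L h0 h1 hu
  have e : u = V + t - 1 + 6 * (n : ℝ) := by linarith
  rw [e, w.perZ]; exact L.nl t (lt_of_le_of_lt ht h1)

theorem Jc_Jc {u : ℝ} (hu : u ∈ Jc V δ) (hu' : u + 1 ∈ Jc V δ) : False := by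
  obtain ⟨n, t, ht, e1⟩ := Jc_rep w L h0 h1 hu
  obtain ⟨n', t', ht', e2⟩ := Jc_rep w L h0 h1 hu'
  have hle := L.le
  have e3 : t' - t + 6 * ((n' : ℝ) - n) = 1 := by linarith
  rw [abs_le] at ht ht'
  have e4 : (0 : ℝ) < 6 * ((n' : ℝ) - n) := by linarith [ht.1, ht.2, ht'.1, ht'.2]
  have e5 : 6 * ((n' : ℝ) - n) < 6 := by linarith [ht.1, ht.2, ht'.1, ht'.2]
  have e6 : (0 : ℝ) < ((n' - n : ℤ) : ℝ) := by push_cast; linarith
  have e7 : ((n' - n : ℤ) : ℝ) < 1 := by push_cast; linarith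
  have e8 : (0 : ℤ) < n' - n := by exact_mod_cast e6
  have e9 : n' - n < 1 := by exact_mod_cast e7
  omega

/-- outside of `Jc` nothing changes -/
theorem Xp_off {u : ℝ} (hu : u ∉ Jc V δ) (l : Fin 4) : u ∈ Xp X V δ l ↔ u ∈ X l := by
  fin_cases l
  · show u ∈ X 0 \ Jo V δ ↔ u ∈ X 0
    exact ⟨fun h => h.1, fun h => ⟨h, fun h2 => hu (Jo_sub w L h0 h1 h2)⟩⟩
  · exact Iff.rfl
  · show u ∈ X 2 ∪ Jc V δ ↔ u ∈ X 2
    exact ⟨fun h => h.resolve_right hu, fun h => Or.inl h⟩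
  · exact Iff.rfl

/-- the letters in `Jc` -/
theorem Xp_on {u : ℝ} (hu : u ∈ Jc V δ) {l : Fin 4} (hl : u ∈ Xp X V δ l) : l = 0 ∨ l = 2 := by
  fin_cases l
  · exact Or.inl rfl
  · exact absurd hl (Jc_n1 w L h0 h1 hu)
  · exact Or.inr rfl
  · exact absurd hl (Jc_n3 w L h0 h1 hu)

/-- two neighbours with the same letter -/
theorem Xp_pair {u : ℝ} {l : Fin 4} (a : u ∈ Xp X V δ l) (b : u + 1 ∈ Xp X V δ l) :
    u ∈ X l ∧ u + 1 ∈ X l ∧ (l = 2 → u ∉ Jc V δ ∧ u + 1 ∉ Jc V δ) := by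
  fin_cases l
  · exact ⟨a.1, b.1, fun h => absurd h (by decide)⟩
  · exact ⟨a, b, fun h => absurd h (by decide)⟩
  · have a' : u ∈ X 2 ∪ Jc V δ := a
    have b' : u + 1 ∈ X 2 ∪ Jc V δ := b
    have key : u ∉ Jc V δ ∧ u + 1 ∉ Jc V δ := by
      constructor
      · intro h
        rcases b' with h' | h'
        · exact Jc_nr w L h0 h1 h h'
        · exact Jc_Jc w L h0 h1 h h'
      · intro h
        rcases a' with h' | h'
        · exact Jc_nl w L h0 h1 h h'
        · exact Jc_Jc w L h0 h1 h' h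
    exact ⟨a'.resolve_right key.1, b'.resolve_right key.2, fun _ => key⟩
  · exact ⟨a, b, fun h => absurd h (by decide)⟩

/-- a second letter -/
theorem Xp_second {u : ℝ} {l m : Fin 4} (hml : m ≠ l) (hl : u ∈ X l) (hm : u ∈ X m)
    (hJ : l = 2 → u ∉ Jc V δ) : u ∈ Xp X V δ m := by
  by_cases hu : u ∈ Jc V δ
  · have n1 := Jc_n1 w L h0 h1 hu
    have n3 := Jc_n3 w L h0 h1 hu
    have hl2 : l ≠ 2 := fun h => hJ h hu
    have hl0 : l = 0 := by
      fin_cases l
      · rfl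
      · exact absurd hl n1
      · exact absurd rfl hl2
      · exact absurd hl n3
    have hm2 : m = 2 := by
      fin_cases m
      · exact absurd hl0.symm hml
      · exact absurd hm n1
      · rfl
      · exact absurd hm n3
    subst hm2
    exact Or.inl hm
  · exact (Xp_off w L h0 h1 hu m).2 hm

/-- the point of `X 0` in `Jc` outside of `Jo` -/
theorem Jc_zero (hs : ∀ t, 0 < t → t < δ' → V + σ * t ∈ X 0) {u : ℝ} (hu : u ∈ Jc V δ)
    (h : u ∈ Xp X V δ 0) : ∃ n : ℤ, u = V + σ * δ + 6 * n := by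
  have hle := L.le
  have h2 : u ∈ X 0 ∧ u ∉ Jo V δ := h
  obtain ⟨n, t, ht, e1⟩ := Jc_rep w L h0 h1 hu
  refine ⟨n, ?_⟩
  have h3 : ¬ |t| < δ := by
    intro h4
    exact h2.2 ((Jo_iff h0.le (by linarith)).2 ⟨n, by
      have : u - V - 6 * (n : ℝ) = t := by rw [e1]; ring
      rw [this]; exact h4⟩)
  have h4 : |t| = δ := le_antisymm ht (not_lt.1 h3)
  have h5 : V + t ∈ X 0 := by rw [e1, w.perZ] at h2; exact h2.1
  have h6 := L.s0 δ h0 h1
  rcases abs_eq h0.le |>.1 h4 with h7 | h7 <;> rcases L.sg with h8 | h8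
  · rw [e1, h7, h8, one_mul]
  · exfalso; apply h6; rw [h8]
    have : V - -1 * δ = V + t := by rw [h7]; ring
    rw [this]; exact h5
  · exfalso; apply h6; rw [h8]
    have : V - 1 * δ = V + t := by rw [h7]; ring
    rw [this]; exact h5
  · rw [e1, h7, h8, neg_one_mul]

theorem Loc_s0 {t : ℝ} (ht0 : 0 < t) (ht : t < δ') : V + σ * t ∈ X 0 := by
  have h5 : |σ * t| < δ' := by
    rcases L.sg with h | h
    · rw [h, one_mul, abs_of_pos ht0]; exact ht
    · rw [h, neg_one_mul, abs_neg, abs_of_pos ht0]; exact ht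
  obtain ⟨l, hl⟩ := w.cover (V + σ * t)
  fin_cases l
  · exact hl
  · exact absurd hl (L.n1 _ h5)
  · exact absurd hl (L.s2 t ht0 ht)
  · exact absurd hl (L.n3 _ h5)

/-- the ends `e|A` of the new word -/
theorem Xp_ends (hu : ∀ u, u ∈ X 0 → u ∈ X 2 → ∃ n : ℤ, u = V + 6 * n) {u : ℝ}
    (a : u ∈ Xp X V δ 0) (b : u ∈ Xp X V δ 2) : ∃ n : ℤ, u = V + σ * δ + 6 * n := by
  have hle := L.le
  have a' : u ∈ X 0 ∧ u ∉ Jo V δ := a
  have b' : u ∈ X 2 ∪ Jc V δ := b
  rcases b' with h | h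
  · exfalso
    obtain ⟨n, hn⟩ := hu u a'.1 h
    apply a'.2
    exact (Jo_iff h0.le (by linarith)).2 ⟨n, by
      have : u - V - 6 * (n : ℝ) = 0 := by rw [hn]; ring
      rw [this, abs_zero]; exact h0⟩
  · exact Jc_zero w L h0 h1 (fun t ht0 ht => Loc_s0 w L h0 h1 ht0 ht) h a

theorem V'_off (n : ℤ) : V + σ * δ + 6 * (n : ℝ) ∉ X 2 := by
  rw [w.perZ]; exact L.s2 δ h0 h1

/-- **the new word** -/
theorem rawV_pert (hu : ∀ u, u ∈ X 0 → u ∈ X 2 → ∃ n : ℤ, u = V + 6 * n) : RawV (Xp X V δ) where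
  closed := by
    intro l
    fin_cases l
    · exact (w.closed 0).sdiff (isOpen_Jo V δ)
    · exact w.closed 1
    · exact (w.closed 2).union (isClosed_Jc V δ)
    · exact w.closed 3
  cover := by
    intro u
    obtain ⟨l, hl⟩ := w.cover u
    fin_cases l
    · by_cases h : u ∈ Jo V δ
      · exact ⟨2, Or.inr (Jo_sub w L h0 h1 h)⟩
      · exact ⟨0, hl, h⟩
    · exact ⟨1, hl⟩
    · exact ⟨2, Or.inl hl⟩
    · exact ⟨3, hl⟩
  per := by
    have e : ∀ u : ℝ, Real.cos (Real.pi / 3 * (u + 6 - V)) = Real.cos (Real.pi / 3 * (u - V)) := by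
      intro u
      have : Real.pi / 3 * (u + 6 - V) = Real.pi / 3 * (u - V) + 2 * Real.pi := by ring
      rw [this, Real.cos_add_two_pi]
    have hc : ∀ u : ℝ, u + 6 ∈ Jc V δ ↔ u ∈ Jc V δ := by
      intro u; unfold Jc; rw [mem_ofPred_eq, mem_ofPred_eq, e]
    have ho : ∀ u : ℝ, u + 6 ∈ Jo V δ ↔ u ∈ Jo V δ := by
      intro u; unfold Jo; rw [mem_ofPred_eq, mem_ofPred_eq, e]
    intro l u
    fin_cases l
    · show u + 6 ∈ X 0 \ Jo V δ ↔ u ∈ X 0 \ Jo V δ
      rw [Set.mem_sdiff, Set.mem_sdiff, w.per, ho]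
    · exact w.per 1 u
    · show u + 6 ∈ X 2 ∪ Jc V δ ↔ u ∈ X 2 ∪ Jc V δ
      rw [Set.mem_union, Set.mem_union, w.per, hc]
    · exact w.per 3 u
  anti := by
    intro u h
    have h' : u ∈ X 2 ∪ Jc V δ := h
    rcases h' with h' | h'
    · exact w.anti u h'
    · exact Jc_na w L h0 h1 h'
  ac := by
    intro u h
    have h' : u ∈ X 2 ∪ Jc V δ := h
    rcases h' with h' | h'
    · exact w.ac u h'
    · exact Jc_n3 w L h0 h1 h'
  two := by
    intro u l m n hl hm hn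
    by_cases hJ : u ∈ Jc V δ
    · rcases Xp_on w L h0 h1 hJ hl with rfl | rfl <;> rcases Xp_on w L h0 h1 hJ hm with rfl | rfl <;>
        rcases Xp_on w L h0 h1 hJ hn with rfl | rfl <;> simp
    · rw [Xp_off w L h0 h1 hJ] at hl hm hn
      exact w.two u l m n hl hm hn
  own := by
    intro u l a b
    obtain ⟨a', b', c⟩ := Xp_pair w L h0 h1 a b
    obtain ⟨m, hm, h⟩ := w.own u l a' b'
    exact ⟨m, hm, Xp_second w L h0 h1 hm a' h (fun h => (c h).1)⟩
  own' := by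
    intro u l a b
    obtain ⟨a', b', c⟩ := Xp_pair w L h0 h1 a b
    obtain ⟨m, hm, h⟩ := w.own' u l a' b'
    exact ⟨m, hm, Xp_second w L h0 h1 hm b' h (fun h => (c h).2)⟩
  swap := by
    intro u l m a b c d
    obtain ⟨a', b', -⟩ := Xp_pair w L h0 h1 a b
    obtain ⟨c', d', -⟩ := Xp_pair w L h0 h1 c d
    exact w.swap u l m a' b' c' d'
  dbl := by
    intro u l m hlm a b c d
    have e : u + 2 = u + 1 + 1 := by ring
    rw [e] at d
    obtain ⟨a', b', -⟩ := Xp_pair w L h0 h1 a b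
    obtain ⟨c', d', -⟩ := Xp_pair w L h0 h1 c d
    exact w.dbl u l m hlm a' b' c' (by rw [e]; exact d')
  threeL := by
    intro u a b c _ _ _
    obtain ⟨n, hn⟩ := Xp_ends w L h0 h1 hu b a
    obtain ⟨b', c', -⟩ := Xp_pair w L h0 h1 b c
    obtain ⟨m, hm, h⟩ := w.own u 0 b' c'
    have hle := L.le
    have hJ : u ∈ Jc V δ := (Jc_iff h0.le (by linarith)).2 ⟨n, by
      have : u - V - 6 * (n : ℝ) = σ * δ := by rw [hn]; ring
      rw [this]
      rcases L.sg with h8 | h8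
      · rw [h8, one_mul, abs_of_pos h0]
      · rw [h8, neg_one_mul, abs_neg, abs_of_pos h0]⟩
    fin_cases m
    · exact absurd rfl hm
    · exact absurd h (Jc_n1 w L h0 h1 hJ)
    · rw [hn] at h; exact absurd h (V'_off w L h0 h1 n)
    · exact absurd h (Jc_n3 w L h0 h1 hJ)
  threeR := by
    intro u _ _ _ c b a
    obtain ⟨n, hn⟩ := Xp_ends w L h0 h1 hu b a
    have e : u + 2 = u + 1 + 1 := by ring
    rw [e] at b
    obtain ⟨c', b', -⟩ := Xp_pair w L h0 h1 c b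
    obtain ⟨m, hm, h⟩ := w.own' (u + 1) 0 c' b'
    rw [← e] at h
    have hle := L.le
    have hJ : u + 2 ∈ Jc V δ := (Jc_iff h0.le (by linarith)).2 ⟨n, by
      have : u + 2 - V - 6 * (n : ℝ) = σ * δ := by rw [hn]; ring
      rw [this]
      rcases L.sg with h8 | h8
      · rw [h8, one_mul, abs_of_pos h0]
      · rw [h8, neg_one_mul, abs_neg, abs_of_pos h0]⟩
    fin_cases m
    · exact absurd rfl hm
    · exact absurd h (Jc_n1 w L h0 h1 hJ)
    · rw [hn] at h; exact absurd h (V'_off w L h0 h1 n)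
    · exact absurd h (Jc_n3 w L h0 h1 hJ)

theorem Xp_Q {Q : ℝ} (hQ : QMark X Q) : QMark (Xp X V δ) Q := by
  have hQ1 : Q ∈ X 1 := by rcases hQ with h | h; exacts [h.mem_a, h.mem_b]
  have hJ : Q ∉ Jc V δ := fun h => Jc_n1 w L h0 h1 h hQ1
  rcases hQ with h | h
  · exact Or.inl ⟨h.mem_a, h.mem_b, fun l hl => h.only l ((Xp_off w L h0 h1 hJ l).1 hl), h.left,
      h.right⟩
  · exact Or.inr ⟨h.mem_a, h.mem_b, fun l hl => h.only l ((Xp_off w L h0 h1 hJ l).1 hl), h.left,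
      h.right⟩

theorem Xp_V : VMark (Xp X V δ) (V + σ * δ) := by
  have hle := L.le
  have hJc : ∀ {t : ℝ}, |t| ≤ δ → V + t ∈ Jc V δ := by
    intro t ht
    exact (Jc_iff h0.le (by linarith)).2 ⟨0, by
      have : V + t - V - 6 * ((0 : ℤ) : ℝ) = t := by push_cast; ring
      rw [this]; exact ht⟩
  have hJo : ∀ {t : ℝ}, |t| < δ → V + t ∈ Jo V δ := by
    intro t ht
    exact (Jo_iff h0.le (by linarith)).2 ⟨0, by
      have : V + t - V - 6 * ((0 : ℤ) : ℝ) = t := by push_cast; ring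
      rw [this]; exact ht⟩
  have hJc' : ∀ {t : ℝ}, δ < |t| → |t| < 3 → V + t ∉ Jc V δ := by
    intro t ht ht3 h
    obtain ⟨n, hn⟩ := (Jc_iff h0.le (by linarith)).1 h
    have e : V + t - V - 6 * (n : ℝ) = t - 6 * n := by ring
    rw [e] at hn
    have h5 : n = 0 := by
      by_contra hne
      have h6 : (1 : ℝ) ≤ |(n : ℝ)| := by
        have := Int.one_le_abs hne
        exact_mod_cast this
      have h7 := abs_sub_abs_le_abs_sub (6 * (n : ℝ)) t
      rw [abs_mul, abs_of_pos (by norm_num : (0 : ℝ) < 6), abs_sub_comm] at h7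
      linarith
    rw [h5] at hn
    simp at hn
    linarith
  have sabs : |σ * δ| = δ := by
    rcases L.sg with h8 | h8
    · rw [h8, one_mul, abs_of_pos h0]
    · rw [h8, neg_one_mul, abs_neg, abs_of_pos h0]
  have m0 : V + σ * δ ∈ Xp X V δ 0 := by
    refine ⟨Loc_s0 w L h0 h1 h0 h1, fun h => ?_⟩
    unfold Jo at h
    rw [mem_ofPred_eq] at h
    have : V + σ * δ - V = σ * δ := by ring
    rw [this] at h
    have h6 : Real.cos (Real.pi / 3 * (σ * δ)) = Real.cos (Real.pi / 3 * δ) := by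
      rcases L.sg with h8 | h8
      · rw [h8, one_mul]
      · rw [h8, neg_one_mul, mul_neg, Real.cos_neg]
    rw [h6] at h
    exact lt_irrefl _ h
  have m2 : V + σ * δ ∈ Xp X V δ 2 := Or.inr (hJc sabs.le)
  have only : ∀ l, V + σ * δ ∈ Xp X V δ l → l = 0 ∨ l = 2 := fun l hl =>
    Xp_on w L h0 h1 (hJc sabs.le) hl
  -- the two sides
  have out : ∀ s : ℝ, δ < s → s < δ' → V + σ * s ∉ Xp X V δ 2 := by
    intro s hs hs' h
    have hs0 : 0 < s := h0.trans hs
    have h' : V + σ * s ∈ X 2 ∪ Jc V δ := h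
    rcases h' with h' | h'
    · exact L.s2 s hs0 hs' h'
    · refine hJc' (t := σ * s) ?_ ?_ h'
      · rcases L.sg with h8 | h8
        · rw [h8, one_mul, abs_of_pos hs0]; exact hs
        · rw [h8, neg_one_mul, abs_neg, abs_of_pos hs0]; exact hs
      · rcases L.sg with h8 | h8
        · rw [h8, one_mul, abs_of_pos hs0]; linarith
        · rw [h8, neg_one_mul, abs_neg, abs_of_pos hs0]; linarith
  have inn : ∀ s : ℝ, 0 < s → s < δ → V + σ * s ∉ Xp X V δ 0 := by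
    intro s hs0 hs h
    have h' : V + σ * s ∈ X 0 \ Jo V δ := h
    refine h'.2 (hJo ?_)
    rcases L.sg with h8 | h8
    · rw [h8, one_mul, abs_of_pos hs0]; exact hs
    · rw [h8, neg_one_mul, abs_neg, abs_of_pos hs0]; exact hs
  rcases L.sg with h8 | h8
  · right
    rw [h8, one_mul] at m0 m2 only ⊢
    refine ⟨m2, m0, fun l hl => (only l hl).symm, ?_, ?_⟩
    · have : Ioo V (V + δ) ∈ 𝓝[<] (V + δ) := Ioo_mem_nhdsLT (by linarith)
      filter_upwards [this] with u hu'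
      have := inn (u - V) (by linarith [hu'.1]) (by linarith [hu'.2])
      rw [h8, one_mul] at this
      have e : V + (u - V) = u := by ring
      rw [e] at this; exact this
    · have : Ioo (V + δ) (V + δ') ∈ 𝓝[>] (V + δ) := Ioo_mem_nhdsGT (by linarith)
      filter_upwards [this] with u hu'
      have := out (u - V) (by linarith [hu'.1]) (by linarith [hu'.2])
      rw [h8, one_mul] at this
      have e : V + (u - V) = u := by ring
      rw [e] at this; exact this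
  · left
    rw [h8, neg_one_mul] at m0 m2 only ⊢
    refine ⟨m0, m2, only, ?_, ?_⟩
    · have : Ioo (V + -δ') (V + -δ) ∈ 𝓝[<] (V + -δ) := Ioo_mem_nhdsLT (by linarith)
      filter_upwards [this] with u hu'
      have := out (V - u) (by linarith [hu'.2]) (by linarith [hu'.1])
      rw [h8, neg_one_mul] at this
      have e : V + -(V - u) = u := by ring
      rw [e] at this; exact this
    · have : Ioo (V + -δ) V ∈ 𝓝[>] (V + -δ) := Ioo_mem_nhdsGT (by linarith)
      filter_upwards [this] with u hu'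
      have := inn (V - u) (by linarith [hu'.2]) (by linarith [hu'.1])
      rw [h8, neg_one_mul] at this
      have e : V + -(V - u) = u := by ring
      rw [e] at this; exact this

end pert

end Vale.Agent.P032.Words
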