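import Vale.Agent.P032.H299.GamW

/-!
# P032: a two-pair centre with a special point, three kinds

`GamW`: what is needed of the circle of a two-pair centre if the static facts `S1`, `S2` on common
points hold.  `exists_specialW`: if there is a two-pair centre then there is one with a four
coloured point `V` on its circle of one of three kinds: (A) `V` in the closure of the exact
`ab`-arcs; (C) both missing colours at `V` and at a point of the circle at distance one from `V`;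
(T) the palette `{a, c, e, f}` between an end of an exact `ab`-arc with `e` and an end of an exact
`cd`-arc with `f`.
-/

open Set Filter Topology Metric

noncomputable section

namespace Vale.Agent.P032.H299

open Vale.Agent.P032.Six Vale.Agent.P032.Words Vale.Agent.P032.S5.H767 Vale.Agent.P032.S5.H349
open Vale.Agent.P032.Net.H672 Vale.Agent.P032.S5.H358 Vale.Agent.P032.H942

variable {U : Fin 6 → Set ℂ} {T : ℂ → Set (Fin 6)} {X : Set (Fin 6)} {z v q q' m : ℂ}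
  {a b c d e f : Fin 6}

/-- what is needed of the circle of a two-pair centre -/
structure GamW (T : ℂ → Set (Fin 6)) (z : ℂ) : Prop where
  ends : ∀ P : Set (Fin 6), P ⊆ T z → P.ncard = 2 → ∀ y, y ∈ closure (Ex T z P) →
    (T y).ncard ≤ 3
  adj : ∀ y y', dist y z = 1 → dist y' z = 1 → dist y y' = 1 → (T z)ᶜ ⊆ T y → (T z)ᶜ ⊆ T y' →
    (T y).ncard ≤ 3
  three : ∀ y y' y'', dist y z = 1 → dist y' z = 1 → dist y'' z = 1 → dist y y' = 1 →
    dist y y'' = 1 → y'' ≠ y' → y'' + y' ≠ 2 * y → (T z)ᶜ ⊆ T y → 4 ≤ (T y).ncard →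
    ∀ P Q : Set (Fin 6), P ⊆ T z → Q ⊆ T z → P.ncard = 2 → Q.ncard = 2 → P ≠ Q →
    y' ∈ closure (Ex T z P) → y'' ∈ closure (Ex T z Q) →
    (∃ x x', x ∉ T z ∧ x' ∉ T z ∧ x ≠ x' ∧ x ∈ T y' ∧ x' ∈ T y'') →
    ∃ R : Set (Fin 6), R ⊆ T z ∧ R.ncard = 2 ∧ (∃ p, Arc T z p R) ∧ T y = R ∪ (T z)ᶜ

/-- points with a pair letter -/
theorem le_of_pair_w (C : Ctr U T z a b c d e f) (K : GamW T z) {y : ℂ} {l : Fin 4}
    (hl : y ∈ Lt T z a b c d e f l) (h2 : 2 ≤ l.val) : (T y).ncard ≤ 3 := by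
  obtain ⟨⟨ab, ac, ad, ae, af⟩, ⟨bc, bd, be, bf⟩, ⟨cd, ce, cf⟩, ⟨de, df⟩, ef⟩ := C.sep
  fin_cases l
  · exact absurd h2 (by decide)
  · exact absurd h2 (by decide)
  · refine K.ends {a, b} ?_ (Set.ncard_pair ab) y hl
    rw [C.pal]; rintro i (rfl | rfl) <;> simp
  · refine K.ends {c, d} ?_ (Set.ncard_pair cd) y hl
    rw [C.pal]; rintro i (rfl | rfl) <;> simp

/-- **(dbl), (three)** -/
theorem dbl_w (C : Ctr U T z a b c d e f) (K : GamW T z) {y y' y'' : ℂ} {l m : Fin 4}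
    (hlm : l ≠ m) (hyy : dist y y' = 1) (hyy' : dist y y'' = 1) (hne : y'' ≠ y')
    (hne2 : y'' + y' ≠ 2 * y)
    (hl : y ∈ Lt T z a b c d e f l) (hl' : y' ∈ Lt T z a b c d e f l)
    (hm : y ∈ Lt T z a b c d e f m) (hm' : y'' ∈ Lt T z a b c d e f m) :
    (l.val < 2 ∧ m.val < 2) ∧
      ¬ (y' ∈ Lt T z a b c d e f 2 ∧ y'' ∈ Lt T z a b c d e f 3) ∧
      ¬ (y' ∈ Lt T z a b c d e f 3 ∧ y'' ∈ Lt T z a b c d e f 2) := by
  obtain ⟨⟨ab, ac, ad, ae, af⟩, ⟨bc, bd, be, bf⟩, ⟨cd, ce, cf⟩, ⟨de, df⟩, ef⟩ := C.sep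
  have hne' : y' ≠ y'' := hne.symm
  have hne2' : y' + y'' ≠ 2 * y := by rw [add_comm]; exact hne2
  have hy := Lt_dist hl
  have hy' := Lt_dist hl'
  have hy'' := Lt_dist hm'
  have kl := Lt_col C.irr hl
  have kl' := Lt_col C.irr hl'
  have km := Lt_col C.irr hm
  have km' := Lt_col C.irr hm'
  have e23 : ∀ n : Fin 4, ¬ n.val < 2 → n = 2 ∨ n = 3 := by decide
  have hl2 : l.val < 2 := by
    by_contra hcon
    have h3 := le_of_pair_w C K hl (not_lt.1 hcon)
    have h3' := le_of_pair_w C K hl' (not_lt.1 hcon)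
    rcases e23 l hcon with rfl | rfl
    · exact C.dblPair hlm hyy hyy' hne hne2 h3 h3' ab hy hy' (kl (Or.inl rfl)) (kl (Or.inr rfl))
        (kl' (Or.inl rfl)) (kl' (Or.inr rfl)) (fun h => C.ne_col hlm (Or.inl rfl) h rfl)
        (fun h => C.ne_col hlm (Or.inr rfl) h rfl) hm hm'
    · exact C.dblPair hlm hyy hyy' hne hne2 h3 h3' cd hy hy' (kl (Or.inl rfl)) (kl (Or.inr rfl))
        (kl' (Or.inl rfl)) (kl' (Or.inr rfl)) (fun h => C.ne_col hlm (Or.inl rfl) h rfl)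
        (fun h => C.ne_col hlm (Or.inr rfl) h rfl) hm hm'
  have hm2 : m.val < 2 := by
    by_contra hcon
    have h3 := le_of_pair_w C K hm (not_lt.1 hcon)
    have h3'' := le_of_pair_w C K hm' (not_lt.1 hcon)
    rcases e23 m hcon with rfl | rfl
    · exact C.dblPair hlm.symm hyy' hyy hne' hne2' h3 h3'' ab hy hy'' (km (Or.inl rfl))
        (km (Or.inr rfl)) (km' (Or.inl rfl)) (km' (Or.inr rfl))
        (fun h => C.ne_col hlm.symm (Or.inl rfl) h rfl)
        (fun h => C.ne_col hlm.symm (Or.inr rfl) h rfl) hl hl'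
    · exact C.dblPair hlm.symm hyy' hyy hne' hne2' h3 h3'' cd hy hy'' (km (Or.inl rfl))
        (km (Or.inr rfl)) (km' (Or.inl rfl)) (km' (Or.inr rfl))
        (fun h => C.ne_col hlm.symm (Or.inl rfl) h rfl)
        (fun h => C.ne_col hlm.symm (Or.inr rfl) h rfl) hl hl'
  refine ⟨⟨hl2, hm2⟩, ?_⟩
  have hef : e ∈ T y ∧ f ∈ T y := by
    rcases val_lt_two hl2 hm2 hlm with ⟨rfl, rfl⟩ | ⟨rfl, rfl⟩
    · exact ⟨hl.2, hm.2⟩
    · exact ⟨hm.2, hl.2⟩
  -- the neighbours carry `A` and `C`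
  have key : ∀ i j : Fin 4, (i = 2 ∧ j = 3) ∨ (i = 3 ∧ j = 2) → y' ∈ Lt T z a b c d e f i →
      y'' ∈ Lt T z a b c d e f j → False := by
    intro i j hij k1 k2
    have hi2 : 2 ≤ i.val := by rcases hij with ⟨rfl, rfl⟩ | ⟨rfl, rfl⟩ <;> decide
    have hj2 : 2 ≤ j.val := by rcases hij with ⟨rfl, rfl⟩ | ⟨rfl, rfl⟩ <;> decide
    have h3' := le_of_pair_w C K k1 hi2
    have h3'' := le_of_pair_w C K k2 hj2
    by_cases h3 : (T y).ncard ≤ 3
    · obtain ⟨-, x, hxz, -, hx', hx''⟩ := C.dbl hlm hyy hyy' hne hne2 h3 h3' h3'' hl hl' hm hm'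
      have hx : x ∈ ({a, b} : Set (Fin 6)) ∨ x ∈ ({c, d} : Set (Fin 6)) := by
        rw [C.pal] at hxz
        rcases hxz with rfl | rfl | h
        · exact Or.inl (Or.inl rfl)
        · exact Or.inl (Or.inr rfl)
        · exact Or.inr h
      rcases hij with ⟨rfl, rfl⟩ | ⟨rfl, rfl⟩
      · rcases hx with h | h
        · exact hx' (sub_of_closure C.irr (P := {a, b}) k1 h)
        · exact hx'' (sub_of_closure C.irr (P := {c, d}) k2 h)
      · rcases hx with h | h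
        · exact hx'' (sub_of_closure C.irr (P := {a, b}) k2 h)
        · exact hx' (sub_of_closure C.irr (P := {c, d}) k1 h)
    · have hsub : (T z)ᶜ ⊆ T y := by
        rw [← ef_eq C]
        rintro i (rfl | rfl)
        exacts [hef.1, hef.2]
      have sab : ({a, b} : Set (Fin 6)) ⊆ T z := by
        rw [C.pal]; rintro i (rfl | rfl) <;> simp
      have scd : ({c, d} : Set (Fin 6)) ⊆ T z := by
        rw [C.pal]; rintro i (rfl | rfl) <;> simp
      have neP : ({a, b} : Set (Fin 6)) ≠ {c, d} := by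
        intro h5
        have h6 : a ∈ ({c, d} : Set (Fin 6)) := by rw [← h5]; simp
        rcases h6 with h6 | h6
        exacts [ac h6, ad h6]
      have heZ : e ∉ T z := by
        have h1 : e ∈ (T z)ᶜ := by rw [← ef_eq C]; exact Or.inl rfl
        exact h1
      have hfZ : f ∉ T z := by
        have h1 : f ∈ (T z)ᶜ := by rw [← ef_eq C]; exact Or.inr rfl
        exact h1
      have hxx : ∃ x x', x ∉ T z ∧ x' ∉ T z ∧ x ≠ x' ∧ x ∈ T y' ∧ x' ∈ T y'' := by
        rcases val_lt_two hl2 hm2 hlm with ⟨rfl, rfl⟩ | ⟨rfl, rfl⟩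
        · exact ⟨e, f, heZ, hfZ, ef, hl'.2, hm'.2⟩
        · exact ⟨f, e, hfZ, heZ, Ne.symm ef, hl'.2, hm'.2⟩
      obtain ⟨P, hP, -, ⟨p, hp⟩, hTy⟩ : ∃ R : Set (Fin 6), R ⊆ T z ∧ R.ncard = 2 ∧
          (∃ p, Arc T z p R) ∧ T y = R ∪ (T z)ᶜ := by
        rcases hij with ⟨rfl, rfl⟩ | ⟨rfl, rfl⟩
        · exact K.three y y' y'' hy hy' hy'' hyy hyy' hne hne2 hsub (by omega) {a, b} {c, d}
            sab scd (Set.ncard_pair ab) (Set.ncard_pair cd) neP k1 k2 hxx
        · exact K.three y y' y'' hy hy' hy'' hyy hyy' hne hne2 hsub (by omega) {c, d} {a, b}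
            scd sab (Set.ncard_pair cd) (Set.ncard_pair ab) neP.symm k1 k2 hxx
      rcases ex_cases C hP (show p ∈ Ex T z P from hp) with rfl | rfl
      · -- `T y = {a, b, e, f}`
        have hT : T y = {a, b, e, f} := by rw [hTy, ← ef_eq C, four_eq]
        rcases hij with ⟨rfl, rfl⟩ | ⟨rfl, rfl⟩
        · exact noA_g C hlm hl2 hm2 hyy hyy' hne hne2 hT h3' hl' hm' k1
        · exact noA_g C hlm.symm hm2 hl2 hyy' hyy hne' hne2' hT h3'' hm' hl' k2
      · -- `T y = {c, d, e, f}`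
        have hT : T y = {c, d, e, f} := by rw [hTy, ← ef_eq C, four_eq]
        have sw : ∀ {w : ℂ} {n : Fin 4}, w ∈ Lt T z a b c d e f n →
            w ∈ Lt T z c d a b e f (Equiv.swap 2 3 n) := by
          intro w n hw
          rw [Ctr.lt_swap, Equiv.swap_apply_self]; exact hw
        have sv : ∀ n : Fin 4, n.val < 2 → (Equiv.swap (2 : Fin 4) 3 n).val < 2 := by decide
        have inj : ∀ {n n' : Fin 4}, n ≠ n' → Equiv.swap (2 : Fin 4) 3 n ≠ Equiv.swap 2 3 n' :=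
          fun hnn h => hnn ((Equiv.swap 2 3).injective h)
        rcases hij with ⟨rfl, rfl⟩ | ⟨rfl, rfl⟩
        · exact noA_g C.swapAC (inj hlm.symm) (sv m hm2) (sv l hl2) hyy' hyy hne' hne2' hT h3''
            (sw hm') (sw hl') (sw k2)
        · exact noA_g C.swapAC (inj hlm) (sv l hl2) (sv m hm2) hyy hyy' hne hne2 hT h3'
            (sw hl') (sw hm') (sw k1)
  exact ⟨fun h => key 2 3 (Or.inl ⟨rfl, rfl⟩) h.1 h.2, fun h => key 3 2 (Or.inr ⟨rfl, rfl⟩) h.1 h.2⟩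

/-- **The word** -/
theorem rawT_gamW (C : Ctr U T z a b c d e f) (K : GamW T z) : RawT (Xs T z a b c d e f) := by
  have hp : ∀ (u : ℝ) (l : Fin 4), 2 ≤ l.val → u ∈ Xs T z a b c d e f l →
      (T (pt z u)).ncard ≤ 3 := fun u l hl hu => le_of_pair_w C K hu hl
  refine ⟨C.x_closed, C.x_cover, C.x_per, ?_, ?_, ?_, fun u l h h' => C.x_own h h',
    fun u l h h' => C.x_own' h h', ?_, ?_, ?_⟩
  · exact fun u h => C.x_anti (hp u 2 (by decide) h) h
  · exact fun u h => C.x_ac (hp u 2 (by decide) h) h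
  · intro u l m n hl hm hn
    by_cases h2 : 2 ≤ l.val ∨ 2 ≤ m.val ∨ 2 ≤ n.val
    · have h3 : (T (pt z u)).ncard ≤ 3 := by
        rcases h2 with h2 | h2 | h2
        exacts [hp u l h2 hl, hp u m h2 hm, hp u n h2 hn]
      exact C.x_two h3 hl hm hn
    · push Not at h2
      have key : ∀ l m n : Fin 4, l.val < 2 → m.val < 2 → n.val < 2 → l = m ∨ m = n ∨ n = l := by
        decide
      exact key l m n h2.1 h2.2.1 h2.2.2
  · intro u l m h1 h2 h4 h5
    by_contra hlm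
    by_cases hl2 : 2 ≤ l.val
    · exact hlm (C.x_swap (hp u l hl2 h1) (hp _ l hl2 h2) h1 h2 h4 h5)
    by_cases hm2 : 2 ≤ m.val
    · exact hlm (C.x_swap (hp u m hm2 h4) (hp _ m hm2 h5) h1 h2 h4 h5)
    push Not at hl2 hm2
    have hef : ∀ w : ℝ, w ∈ Xs T z a b c d e f l → w ∈ Xs T z a b c d e f m →
        (T z)ᶜ ⊆ T (pt z w) := by
      intro w k1 k2
      rw [← ef_eq C]
      rcases val_lt_two hl2 hm2 hlm with ⟨rfl, rfl⟩ | ⟨rfl, rfl⟩
      · rintro i (rfl | rfl)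
        exacts [k1.2, k2.2]
      · rintro i (rfl | rfl)
        exacts [k2.2, k1.2]
    have s1 := hef u h1 h4
    have s2 := hef (u + 1) h2 h5
    have t1 := K.adj _ _ (dist_pt z u) (dist_pt z (u + 1)) (dist_pt_one z u) s1 s2
    have t2 := K.adj _ _ (dist_pt z (u + 1)) (dist_pt z u)
      (by rw [dist_comm]; exact dist_pt_one z u) s2 s1
    exact hlm (C.x_swap t1 t2 h1 h2 h4 h5)
  · intro u l m hlm h1 h2 h4 h5
    obtain ⟨k1, k2⟩ := pt_off z u
    have e1 : u + 1 + 1 = u + 2 := by ring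
    have k3 := dist_pt_one z (u + 1)
    rw [e1] at k3
    exact (dbl_w C K hlm (by rw [dist_comm]; exact dist_pt_one z u) k3 k1 k2 h2 h1 h4 h5).1
  · intro u l m hlm h1 h2 h4 h5
    obtain ⟨k1, k2⟩ := pt_off z u
    have e1 : u + 1 + 1 = u + 2 := by ring
    have k3 := dist_pt_one z (u + 1)
    rw [e1] at k3
    exact (dbl_w C K hlm (by rw [dist_comm]; exact dist_pt_one z u) k3 k1 k2 h2 h1 h4 h5).2

/-- a `GamW` circle is good -/
theorem okC_of_gamW (K : GamW T z) : OkC U T z :=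
  ⟨fun _ _ _ _ _ _ C' => rawT_gamW C' K, K.ends⟩

/-- **No two-pair centre** if all circles of two-pair centres are `GamW` -/
theorem no_D_of_gamW (h : Irr U T) (h4 : ∀ z, (T z).ncard ≤ 4) (hS1 : S1 T) (hS2 : S2 T)
    (hK : ∀ z a b c d, DPt T z a b c d → GamW T z) :
    ∀ z a b c d, DPt T z a b c d → False :=
  no_D_of_okC h h4 hS1 hS2 fun z a b c d hz => okC_of_gamW (hK z a b c d hz)

/-- the special points `V` of the circle of `z`: (A) on the closure of the exact `ab`-arcs; (C) both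
missing colours at `V` and at a point of the circle at distance one; (T) the palette
`{a, c, e, f}` between an `ab`-end with `e` and a `cd`-end with `f` -/
structure SpcW (T : ℂ → Set (Fin 6)) (z : ℂ) (a b c d e f : Fin 6) (V : ℂ) : Prop where
  dpt : DPt T z a b c d
  nd : [a, b, c, d, e, f].Nodup
  dist : dist V z = 1
  four : 4 ≤ (T V).ncard
  kind : V ∈ closure (Ex T z {a, b}) ∨
    ((T V = {a, b, e, f} ∨ T V = {a, c, e, f}) ∧
      ∃ V', Dist.dist V' z = 1 ∧ Dist.dist V V' = 1 ∧ e ∈ T V' ∧ f ∈ T V') ∨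
    (T V = {a, c, e, f} ∧ ∃ V' V'', Dist.dist V' z = 1 ∧ Dist.dist V'' z = 1 ∧
      Dist.dist V V' = 1 ∧ Dist.dist V V'' = 1 ∧ V'' ≠ V' ∧ V'' + V' ≠ 2 * V ∧
      V' ∈ closure (Ex T z {a, b}) ∧ V'' ∈ closure (Ex T z {c, d}) ∧ e ∈ T V' ∧ f ∈ T V'')

theorem nd12 {a b c d e f : Fin 6} (nd : [a, b, c, d, e, f].Nodup) : [b, a, c, d, e, f].Nodup :=
  (List.Perm.swap b a [c, d, e, f]).nodup_iff.1 nd |> id

theorem nd34 {a b c d e f : Fin 6} (nd : [a, b, c, d, e, f].Nodup) : [a, b, d, c, e, f].Nodup :=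
  (List.Perm.cons a (List.Perm.cons b (List.Perm.swap d c [e, f]))).nodup_iff.1 nd

theorem nd56 {a b c d e f : Fin 6} (nd : [a, b, c, d, e, f].Nodup) : [a, b, c, d, f, e].Nodup :=
  (List.Perm.cons a (List.Perm.cons b (List.Perm.cons c (List.Perm.cons d
    (List.Perm.swap f e []))))).nodup_iff.1 nd

theorem four_swap {a b e f : Fin 6} : ({a, b, e, f} : Set (Fin 6)) = {a, b, f, e} := by
  ext i; simp only [mem_insert_iff, mem_singleton_iff]; tauto

/-- **A two-pair centre with a special point.** -/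
theorem exists_specialW (h : Irr U T) (h4 : ∀ z, (T z).ncard ≤ 4) (hS1 : S1 T) (hS2 : S2 T)
    (hz : DPt T z a b c d) : ∃ z a b c d e f V, SpcW T z a b c d e f V := by
  by_contra hcon
  push Not at hcon
  refine no_D_of_gamW h h4 hS1 hS2 ?_ z a b c d hz
  clear hz
  intro z a b c d hz
  obtain ⟨e, f, nd⟩ := hz.exists_nodup
  have C := ctr_of_dpt h hz nd
  have ef_c : ({e, f} : Set (Fin 6)) = (T z)ᶜ := ef_eq C
  have ndac : [c, d, a, b, e, f].Nodup := C.swapAC.nd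
  have sub_ef : ∀ {y : ℂ}, (T z)ᶜ ⊆ T y → e ∈ T y ∧ f ∈ T y := by
    intro y hy
    rw [← ef_c] at hy
    exact ⟨hy (Or.inl rfl), hy (Or.inr rfl)⟩
  refine ⟨?_, ?_, ?_⟩
  · intro P hP hP2 y hy
    by_contra h5
    push Not at h5
    obtain ⟨p, hp⟩ := closure_nonempty_iff.1 ⟨y, hy⟩
    rcases ex_cases C hP hp with rfl | rfl
    · exact hcon z a b c d e f y ⟨hz, nd, dist_of_closure hy, h5, Or.inl hy⟩
    · exact hcon z c d a b e f y ⟨hz.swap, ndac, dist_of_closure hy, h5, Or.inl hy⟩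
  · intro y y' hy hy' hyy hs hs'
    by_contra h5
    push Not at h5
    obtain ⟨he, hf⟩ := sub_ef hs
    obtain ⟨he', hf'⟩ := sub_ef hs'
    rcases pal_cases h4 C he hf h5 with h6 | h6 | h6 | h6 | h6 | h6
    · exact hcon z a b c d e f y ⟨hz, nd, hy, h5, Or.inr (Or.inl ⟨Or.inl h6, y', hy', hyy, he',
        hf'⟩)⟩
    · exact hcon z c d a b e f y ⟨hz.swap, ndac, hy, h5, Or.inr (Or.inl ⟨Or.inl h6, y', hy', hyy,
        he', hf'⟩)⟩
    · exact hcon z a b c d e f y ⟨hz, nd, hy, h5, Or.inr (Or.inl ⟨Or.inr h6, y', hy', hyy, he',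
        hf'⟩)⟩
    · exact hcon z a b d c e f y ⟨hz.swap34, nd34 nd, hy, h5, Or.inr (Or.inl ⟨Or.inr h6, y', hy',
        hyy, he', hf'⟩)⟩
    · exact hcon z b a c d e f y ⟨hz.swap12, nd12 nd, hy, h5, Or.inr (Or.inl ⟨Or.inr h6, y', hy',
        hyy, he', hf'⟩)⟩
    · exact hcon z b a d c e f y ⟨hz.swap12.swap34, nd34 (nd12 nd), hy, h5, Or.inr (Or.inl
        ⟨Or.inr h6, y', hy', hyy, he', hf'⟩)⟩
  · -- (three)
    intro y y' y'' hy hy' hy'' hyy hyy' hne hne2 hs h5 P Q hP hQ hP2 hQ2 hPQ k1 k2 hxx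
    obtain ⟨x, x', hx, hx', hxx', hx1, hx2⟩ := hxx
    obtain ⟨he, hf⟩ := sub_ef hs
    obtain ⟨p, hp⟩ := closure_nonempty_iff.1 ⟨y', k1⟩
    obtain ⟨r, hr⟩ := closure_nonempty_iff.1 ⟨y'', k2⟩
    -- names of the missing colours
    have hxe : (x = e ∧ x' = f) ∨ (x = f ∧ x' = e) := by
      have a1 : x ∈ ({e, f} : Set (Fin 6)) := by rw [ef_c]; exact hx
      have a2 : x' ∈ ({e, f} : Set (Fin 6)) := by rw [ef_c]; exact hx'
      rcases a1 with a1 | a1 <;> rcases a2 with a2 | a2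
      · exact absurd (a1.trans a2.symm) hxx'
      · exact Or.inl ⟨a1, a2⟩
      · exact Or.inr ⟨a1, a2⟩
      · exact absurd (a1.trans a2.symm) hxx'
    -- the crossing palettes are impossible
    have main : ∀ {a b c d e f : Fin 6}, DPt T z a b c d → [a, b, c, d, e, f].Nodup →
        y' ∈ closure (Ex T z {a, b}) → y'' ∈ closure (Ex T z {c, d}) → e ∈ T y' → f ∈ T y'' →
        T y ≠ {a, c, e, f} := by
      intro a b c d e f hz nd m1 m2 m3 m4 hT
      exact hcon z a b c d e f y ⟨hz, nd, hy, h5, Or.inr (Or.inr ⟨hT, y', y'', hy', hy'', hyy,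
        hyy', hne, hne2, m1, m2, m3, m4⟩)⟩
    have main2 : ∀ {a b c d e f : Fin 6}, DPt T z a b c d → [a, b, c, d, e, f].Nodup →
        Ctr U T z a b c d e f →
        y' ∈ closure (Ex T z {a, b}) → y'' ∈ closure (Ex T z {c, d}) → e ∈ T y' → f ∈ T y'' →
        e ∈ T y → f ∈ T y → T y = {a, b, e, f} ∨ T y = {c, d, e, f} := by
      intro a b c d e f hz nd C m1 m2 m3 m4 he hf
      have m1' : y' ∈ closure (Ex T z {b, a}) := by rw [Set.pair_comm]; exact m1
      have m2' : y'' ∈ closure (Ex T z {d, c}) := by rw [Set.pair_comm]; exact m2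
      rcases pal_cases h4 C he hf h5 with h6 | h6 | h6 | h6 | h6 | h6
      · exact Or.inl h6
      · exact Or.inr h6
      · exact absurd h6 (main hz nd m1 m2 m3 m4)
      · exact absurd h6 (main hz.swap34 (nd34 nd) m1 m2' m3 m4)
      · exact absurd h6 (main hz.swap12 (nd12 nd) m1' m2 m3 m4)
      · exact absurd h6 (main hz.swap12.swap34 (nd34 (nd12 nd)) m1' m2' m3 m4)
    have fin : ∀ {a b c d e f : Fin 6}, DPt T z a b c d → Ctr U T z a b c d e f →
        (T y = {a, b, e, f} ∨ T y = {c, d, e, f}) →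
        ∃ R : Set (Fin 6), R ⊆ T z ∧ R.ncard = 2 ∧ (∃ p, Arc T z p R) ∧ T y = R ∪ (T z)ᶜ := by
      intro a b c d e f hz C h6
      rcases h6 with h6 | h6
      · refine ⟨{a, b}, ?_, Set.ncard_pair hz.ab, hz.arc1, ?_⟩
        · rw [hz.pal]; rintro i (rfl | rfl) <;> simp
        · rw [h6, ← ef_eq C, four_eq]
      · refine ⟨{c, d}, ?_, Set.ncard_pair hz.cd, hz.arc2, ?_⟩
        · rw [hz.pal]; rintro i (rfl | rfl) <;> simp
        · rw [h6, ← ef_eq C, four_eq]
    rcases ex_cases C hP hp with rfl | rfl <;> rcases ex_cases C hQ hr with rfl | rfl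
    · exact absurd rfl hPQ
    · rcases hxe with ⟨rfl, rfl⟩ | ⟨rfl, rfl⟩
      · exact fin hz C (main2 hz nd C k1 k2 hx1 hx2 he hf)
      · exact fin hz C.swapEF (main2 hz (nd56 nd) C.swapEF k1 k2 hx1 hx2 hf he)
    · rcases hxe with ⟨rfl, rfl⟩ | ⟨rfl, rfl⟩
      · exact fin hz.swap C.swapAC (main2 hz.swap ndac C.swapAC k1 k2 hx1 hx2 he hf)
      · exact fin hz.swap C.swapAC.swapEF
          (main2 hz.swap (nd56 ndac) C.swapAC.swapEF k1 k2 hx1 hx2 hf he)
    · exact absurd rfl hPQ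

end Vale.Agent.P032.H299
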