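import Vale.Agent.P032.H299.PertW

/-!
# Words on a circle with exact contacts: user level forms of L1, L2, L3 without `three`
-/

namespace Vale.Agent.P032.Words

open Set Filter Topology

variable {X : Fin 4 → Set ℝ}

/-- **L2**: not exactly one end `e|A` and exactly one end `f|C`. -/
theorem RawV.L2 (R : RawV X) {V Q : ℝ} (hV : End X 0 2 V) (hQ : End X 1 3 Q)
    (hVu : ∀ u, u ∈ X 0 → u ∈ X 2 → ∃ n : ℤ, u = V + 6 * n)
    (hQu : ∀ u, u ∈ X 1 → u ∈ X 3 → ∃ n : ℤ, u = Q + 6 * n) : False := by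
  -- reduce `V` to the window `[Q, Q + 6)`, with the roles of the two ends kept
  obtain ⟨m, hm⟩ : ∃ m : ℤ, V ≤ Q + 6 * m ∧ Q + 6 * m < V + 6 := by
    refine ⟨-⌊(Q - V) / 6⌋, ?_, ?_⟩
    · have := Int.floor_le ((Q - V) / 6)
      push_cast; linarith
    · have := Int.lt_floor_add_one ((Q - V) / 6)
      push_cast; linarith
  obtain ⟨hm1, hm2⟩ := hm
  have perZ : ∀ (n : ℤ) (l : Fin 4) (u : ℝ), u + 6 * (n : ℝ) ∈ X l ↔ u ∈ X l := by
    intro n l
    induction n with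
    | zero => intro u; simp
    | succ i ih =>
      intro u
      have : u + 6 * (((i : ℤ) + 1 : ℤ) : ℝ) = (u + 6 * ((i : ℤ) : ℝ)) + 6 := by push_cast; ring
      rw [this, R.per, ih]
    | pred i ih =>
      intro u
      have : u + 6 * ((-(i : ℤ) - 1 : ℤ) : ℝ) + 6 = u + 6 * ((-(i : ℤ) : ℤ) : ℝ) := by
        push_cast; ring
      rw [← R.per, this, ih]
  have hmark : ∀ {x y : Fin 4}, Mark X x y Q → Mark X x y (Q + 6 * (m : ℝ)) := by
    intro x y hh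
    refine ⟨(perZ m _ _).mpr hh.mem_a, (perZ m _ _).mpr hh.mem_b,
      fun l hl => hh.only l ((perZ m _ _).mp hl), ?_, ?_⟩
    · have h1 := tendsto_add_left (Q + 6 * (m : ℝ)) (-(6 * (m : ℝ)))
      have e : Q + 6 * (m : ℝ) + -(6 * (m : ℝ)) = Q := by ring
      rw [e] at h1
      filter_upwards [h1.eventually hh.left] with v hv hv'
      refine hv ((perZ m _ _).mp ?_)
      have e2 : v + -(6 * (m : ℝ)) + 6 * (m : ℝ) = v := by ring
      rw [e2]; exact hv'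
    · have h1 := tendsto_add_right (Q + 6 * (m : ℝ)) (-(6 * (m : ℝ)))
      have e : Q + 6 * (m : ℝ) + -(6 * (m : ℝ)) = Q := by ring
      rw [e] at h1
      filter_upwards [h1.eventually hh.right] with v hv hv'
      refine hv ((perZ m _ _).mp ?_)
      have e2 : v + -(6 * (m : ℝ)) + 6 * (m : ℝ) = v := by ring
      rw [e2]; exact hv'
  have hQ2 : QMark X (Q + 6 * (m : ℝ)) := hQ.imp hmark hmark
  set T := Q + 6 * (m : ℝ) with hT
  have hf0 : 0 ≤ ⌊T - V⌋ := Int.floor_nonneg.mpr (by linarith)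
  have hf6 : ⌊T - V⌋ < 6 := by
    rw [Int.floor_lt]; push_cast; linarith
  have e : ((⌊T - V⌋.toNat : ℕ) : ℝ) = (⌊T - V⌋ : ℝ) := by
    have : ((⌊T - V⌋.toNat : ℤ)) = ⌊T - V⌋ := Int.toNat_of_nonneg hf0
    exact_mod_cast congrArg (Int.cast : ℤ → ℝ) this
  have hTe : V + Int.fract (T - V) + (((⟨⌊T - V⌋.toNat, by omega⟩ : Fin 6).val : ℕ) : ℝ) = T := by
    show V + Int.fract (T - V) + ((⌊T - V⌋.toNat : ℕ) : ℝ) = T
    rw [e]
    have := Int.floor_add_fract (T - V)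
    linarith
  refine TieW.L2 R R.ac hV hVu (k := ⟨⌊T - V⌋.toNat, by omega⟩)
    (Int.fract_nonneg (T - V)) (Int.fract_lt_one (T - V)) ?_ ?_
  · rw [hTe]; exact hQ2
  · intro u a b
    obtain ⟨n, hn⟩ := hQu u a b
    refine ⟨n - m, ?_⟩
    rw [hTe, hT, hn]
    push_cast; ring

/-- **L3**: exactly one end `V` of type `e|A`, exactly two ends `Q < Q'` of type `f|C` in the window
`(V, V + 6)`: the centre is in the open triangle of the three ends. -/
theorem RawV.L3 (R : RawV X) {V Q Q' : ℝ} (hV : End X 0 2 V)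
    (hVu : ∀ u, u ∈ X 0 → u ∈ X 2 → ∃ n : ℤ, u = V + 6 * n)
    (hQ : End X 1 3 Q) (hQ' : End X 1 3 Q') (h1 : V < Q) (h2 : Q < Q') (h3 : Q' < V + 6)
    (hQu : ∀ u, u ∈ X 1 → u ∈ X 3 → ∃ n : ℤ, u = Q + 6 * n ∨ u = Q' + 6 * n) :
    Q < V + 3 ∧ V + 3 < Q' ∧ Q' < Q + 3 :=
  TieW.L3 R R.ac R.anti hV hVu hQ hQ' h1 h2 h3 hQu


/-- a word is without three in a row, or the neighbours of the end `e|A` do not carry `A` -/
theorem RawW.rawV_or (w : RawW X) {V : ℝ} (hVu : ∀ u, u ∈ X 0 → u ∈ X 2 → ∃ n : ℤ, u = V + 6 * n) :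
    (V + 1 ∉ X 2 ∧ V - 1 ∉ X 2) ∨ RawV X := by
  by_cases hc : V + 1 ∉ X 2 ∧ V - 1 ∉ X 2
  · exact Or.inl hc
  right
  have no3 : ∀ {u : ℝ}, u ∈ X 0 → u ∈ X 1 → u ∉ X 2 := by
    intro u a b c
    rcases w.two u 0 1 2 a b c with h | h | h <;> exact absurd h (by decide)
  refine ⟨w, ?_, ?_⟩
  · intro u h2 h0 k0 k1 _ _
    apply hc
    obtain ⟨n, hn⟩ := hVu u h0 h2
    constructor
    · intro h
      refine no3 k0 k1 ?_
      have e : u + 1 = V + 1 + 6 * (n : ℝ) := by rw [hn]; ring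
      rw [e, w.perZ]; exact h
    · intro h
      have e : u - 1 = V - 1 + 6 * (n : ℝ) := by rw [hn]; ring
      have h3 : u - 1 ∈ X 2 := by rw [e, w.perZ]; exact h
      have e1 : u - 1 + 1 = u := by ring
      have e2 : u - 1 + 2 = u + 1 := by ring
      have := w.dbl (u - 1) 2 0 (by decide) h3 (by rw [e1]; exact h2) (by rw [e1]; exact h0)
        (by rw [e2]; exact k0)
      exact absurd this.1 (by decide)
  · intro u _ _ k1 k0 h0 h2
    apply hc
    obtain ⟨n, hn⟩ := hVu (u + 2) h0 h2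
    constructor
    · intro h
      have e : u + 1 + 2 = V + 1 + 6 * (n : ℝ) := by linarith
      have h3 : u + 1 + 2 ∈ X 2 := by rw [e, w.perZ]; exact h
      have e1 : u + 1 + 1 = u + 2 := by ring
      have := w.dbl (u + 1) 0 2 (by decide) k0 (by rw [e1]; exact h0) (by rw [e1]; exact h2) h3
      exact absurd this.2 (by decide)
    · intro h
      refine no3 k0 k1 ?_
      have e : u + 1 = V - 1 + 6 * (n : ℝ) := by linarith
      rw [e, w.perZ]; exact h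

/-- **L1**: `e` meets `A` or `C`. -/
theorem RawW.L1e (w : RawW X) : ∃ u, u ∈ X 0 ∧ (u ∈ X 2 ∨ u ∈ X 3) := by
  by_contra h
  push Not at h
  exact TieW.L1 w (fun u hu => (h u hu).1) (fun u hu => (h u hu).2) w.ac

/-- **L2**: not exactly one end `e|A` and exactly one end `f|C`. -/
theorem RawW.L2 (w : RawW X) {V Q : ℝ} (hV : End X 0 2 V) (hQ : End X 1 3 Q)
    (hVu : ∀ u, u ∈ X 0 → u ∈ X 2 → ∃ n : ℤ, u = V + 6 * n)
    (hQu : ∀ u, u ∈ X 1 → u ∈ X 3 → ∃ n : ℤ, u = Q + 6 * n) : False := by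
  rcases w.rawV_or hVu with ⟨k1, k2⟩ | R
  swap
  · exact R.L2 hV hQ hVu hQu
  obtain ⟨δ', σ, L, -⟩ := w.exists_loc hV k1 k2
  have h0 : 0 < δ' / 2 := by linarith [L.pos]
  have h1 : δ' / 2 < δ' := by linarith [L.pos]
  exact (rawV_pert w L h0 h1 hVu).L2 (V := V + σ * (δ' / 2)) (Q := Q) (Xp_V w L h0 h1)
    (Xp_Q w L h0 h1 hQ) (fun u a b => Xp_ends w L h0 h1 hVu a b) hQu

/-- **L3**: exactly one end `V` of type `e|A`, exactly two ends `Q < Q'` of type `f|C` in the window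
`(V, V + 6)`: the centre is in the open triangle of the three ends. -/
theorem RawW.L3 (w : RawW X) {V Q Q' : ℝ} (hV : End X 0 2 V)
    (hVu : ∀ u, u ∈ X 0 → u ∈ X 2 → ∃ n : ℤ, u = V + 6 * n)
    (hQ : End X 1 3 Q) (hQ' : End X 1 3 Q') (h1 : V < Q) (h2 : Q < Q') (h3 : Q' < V + 6)
    (hQu : ∀ u, u ∈ X 1 → u ∈ X 3 → ∃ n : ℤ, u = Q + 6 * n ∨ u = Q' + 6 * n) :
    Q < V + 3 ∧ V + 3 < Q' ∧ Q' < Q + 3 := by
  rcases w.rawV_or hVu with ⟨k1, k2⟩ | R
  swap
  · exact R.L3 hV hVu hQ hQ' h1 h2 h3 hQu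
  obtain ⟨δ', σ, L, -⟩ := w.exists_loc hV k1 k2
  have p0 : 0 < δ' / 2 := by linarith [L.pos]
  have p1 : δ' / 2 < δ' := by linarith [L.pos]
  have hle := L.le
  have hs : |σ * (δ' / 2)| = δ' / 2 := by
    rcases L.sg with h8 | h8
    · rw [h8, one_mul, abs_of_pos p0]
    · rw [h8, neg_one_mul, abs_neg, abs_of_pos p0]
  obtain ⟨s1, s2⟩ := abs_le.1 hs.le
  have q1 : ∀ {P : ℝ}, QMark X P → P ∈ X 1 ∧ P ∈ X 3 := by
    intro P hP
    rcases hP with h | h
    exacts [⟨h.mem_a, h.mem_b⟩, ⟨h.mem_b, h.mem_a⟩]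
  -- positions
  have g1 : V + δ' ≤ Q := by
    by_contra h
    push Not at h
    refine L.n1 (Q - V) (by rw [abs_of_pos (by linarith)]; linarith) ?_
    have e : V + (Q - V) = Q := by ring
    rw [e]; exact (q1 hQ).1
  have g2 : Q' ≤ V + 6 - δ' := by
    by_contra h
    push Not at h
    refine L.n1 (Q' - 6 - V) (by rw [abs_of_neg (by linarith)]; linarith) ?_
    have e : V + (Q' - 6 - V) = Q' - 6 := by ring
    rw [e, ← w.per]
    have e : Q' - 6 + 6 = Q' := by ring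
    rw [e]; exact (q1 hQ').1
  have na : ∀ {P : ℝ}, P ∈ X 3 → ¬ |P - V - 3| < δ' := by
    intro P hP h
    refine L.na (P - V - 3) h ?_
    have e : V + (P - V - 3) + 3 = P := by ring
    rw [e]; exact hP
  obtain ⟨r1, r2, r3⟩ := (rawV_pert w L p0 p1 hVu).L3 (V := V + σ * (δ' / 2)) (Q := Q) (Q' := Q')
    (Xp_V w L p0 p1) (fun u a b => Xp_ends w L p0 p1 hVu a b) (Xp_Q w L p0 p1 hQ)
    (Xp_Q w L p0 p1 hQ') (by linarith) h2 (by linarith) hQu
  refine ⟨?_, ?_, r3⟩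
  · by_contra h
    push Not at h
    exact na (q1 hQ).2 (by rw [abs_lt]; constructor <;> linarith)
  · by_contra h
    push Not at h
    exact na (q1 hQ').2 (by rw [abs_lt]; constructor <;> linarith)

end Vale.Agent.P032.Words
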